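import Vale.Agent.P264.Calc.Slices

/-!
Integrals in position of functions smooth on a product set: derivative and continuity in time.
-/

namespace Vale.Agent.P264.Middle

open Set Filter Topology MeasureTheory
open scoped ContDiff

variable {F : ℝ → ℝ → ℝ} {s u : Set ℝ} {t : ℝ}

/-- Differentiation of a position integral in time. -/
theorem hasDerivAt_slice_integral {a b : ℝ} (hab : a ≤ b) (hu : Icc a b ⊆ u)
    (hs : UniqueDiffOn ℝ s) (hu' : UniqueDiffOn ℝ u)
    (hF : Calc.Smooth2 s u F) (ht : t ∈ interior s) :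
    HasDerivAt (fun r => ∫ z in a..b, F r z) (∫ z in a..b, Calc.pdT s u F t z) t := by
  obtain ⟨δ, hδ, hball⟩ := Metric.isOpen_iff.1 isOpen_interior t ht
  have hI : Icc (t - δ / 2) (t + δ / 2) ⊆ interior s := fun r hr => hball (by
    rw [Metric.mem_ball, Real.dist_eq, abs_lt]; constructor <;> linarith [hr.1, hr.2])
  have hsub : Icc (t - δ / 2) (t + δ / 2) ×ˢ Icc a b ⊆ s ×ˢ u :=
    prod_mono (hI.trans interior_subset) hu
  have hT := ((hF.pdT hs hu').continuousOn).mono hsub
  obtain ⟨B, hB⟩ := (isCompact_Icc.prod isCompact_Icc).exists_bound_of_continuousOn hT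
  have sl : ∀ (G : ℝ → ℝ → ℝ), ContinuousOn (Function.uncurry G) (s ×ˢ u) → ∀ r ∈ s,
      ContinuousOn (G r) (uIcc a b) := fun G hG r hr => by
    rw [uIcc_of_le hab]
    exact hG.comp (continuousOn_const.prodMk continuousOn_id) fun z hz => ⟨hr, hu hz⟩
  have hIoc : uIoc a b ⊆ Icc a b := by rw [uIoc_of_le hab]; exact Ioc_subset_Icc_self
  have meas : ∀ (G : ℝ → ℝ → ℝ), ContinuousOn (Function.uncurry G) (s ×ˢ u) → ∀ r ∈ s,
      AEStronglyMeasurable (G r) (volume.restrict (uIoc a b)) := fun G hG r hr =>
    ((sl G hG r hr).mono uIoc_subset_uIcc).aestronglyMeasurable measurableSet_uIoc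
  refine (intervalIntegral.hasDerivAt_integral_of_dominated_loc_of_deriv_le
    (F := F) (F' := Calc.pdT s u F) (bound := fun _ => B)
    (Ioo_mem_nhds (by linarith : t - δ / 2 < t) (by linarith : t < t + δ / 2))
    ?_ ((sl F hF.continuousOn t (interior_subset ht)).intervalIntegrable)
    (meas _ (hF.pdT hs hu').continuousOn t (interior_subset ht)) ?_
    intervalIntegrable_const ?_).2
  · filter_upwards [isOpen_interior.mem_nhds ht] with r hr
    exact meas _ hF.continuousOn r (interior_subset hr)
  · exact Eventually.of_forall fun z hz r hr => hB (r, z) ⟨Ioo_subset_Icc_self hr, hIoc hz⟩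
  · refine Eventually.of_forall fun z hz r hr => ?_
    have hr' := hI (Ioo_subset_Icc_self hr)
    exact hF.hasDerivAt_t (mem_interior_iff_mem_nhds.1 hr') (hu (hIoc hz))

/-- Position integrals are continuous in time. -/
theorem continuousOn_slice_integral {a b c d : ℝ} (hab : a ≤ b) (hcd : c ≤ d)
    (hF : ContinuousOn (Function.uncurry F) (Icc c d ×ˢ Icc a b)) :
    ContinuousOn (fun r => ∫ z in a..b, F r z) (Icc c d) := by
  set G : ℝ → ℝ → ℝ := fun r z => F (projIcc c d hcd r) (projIcc a b hab z)
  have hG : Continuous (Function.uncurry G) := by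
    refine hF.comp_continuous (f := fun p : ℝ × ℝ =>
      ((projIcc c d hcd p.1 : ℝ), (projIcc a b hab p.2 : ℝ))) (by fun_prop) fun p => ?_
    exact ⟨(projIcc c d hcd p.1).2, (projIcc a b hab p.2).2⟩
  refine ((intervalIntegral.continuous_parametric_intervalIntegral_of_continuous'
    (μ := volume) hG a b).continuousOn).congr fun r hr => ?_
  refine intervalIntegral.integral_congr fun z hz => ?_
  rw [uIcc_of_le hab] at hz
  simp only [G, projIcc_of_mem hcd hr, projIcc_of_mem hab hz]

end Vale.Agent.P264.Middle
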