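import Vale.Agent.P264.Inner.Targets

/-!
Frozen statements of the reference and middle modules.
-/

namespace Vale.Agent.P264.Middle

open Set
open scoped ContDiff

/-- The reference is a family of profiles and its defect is of size `1/L`. -/
def RefTarget : Prop :=
  ∀ (σ : Shrinker), ∃ L₀ C : ℝ, 0 < L₀ ∧ 0 < C ∧ ∀ L : ℝ, L₀ ≤ L →
    (∀ t ∈ Ico (0:ℝ) 1, IsProfile L (phiRef σ L t)) ∧
    ContDiffOn ℝ ∞ (Function.uncurry (phiRef σ L)) (Ico 0 1 ×ˢ Icc 0 L) ∧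
    (∀ t ∈ Ico (0:ℝ) 1, ∀ x ∈ Ioo 0 L, |fRef σ L t x| ≤ C / L ∧
      (x < L / 4 → fRef σ L t x = 0))

/-- Initial data equal to the reference outside a fixed rescaled range keep the profile
comparable to the reference: the bound `M` depends only on the shrinker and may be taken above
any given number, the bootstrap may use `2 M`. -/
def MiddleTarget : Prop :=
  Inner.InnerSupTarget → ∀ (σ : Shrinker) (M₀ : ℝ), ∃ M : ℝ, M₀ ≤ M ∧ 1 < M ∧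
    ∃ R₀ : ℝ, 0 < R₀ ∧
    ∀ R : ℝ, R₀ ≤ R → ∃ η₀ L₀ : ℝ, 0 < η₀ ∧ 0 < L₀ ∧ ∀ L : ℝ, L₀ ≤ L →
      ∀ (φ₀ : ℝ → ℝ) (φ w : ℝ → ℝ → ℝ), IsFlow L 1 φ₀ φ → RelPot σ L φ w →
        (∀ x ∈ Icc R L, φ₀ x = phiRef σ L 0 x) →
        ∀ s₁ : ℝ, 0 ≤ s₁ → (∀ s ∈ Icc 0 s₁, Boot σ L R η₀ (2 * M) φ w s) →
          ∀ y ∈ Ioo 0 (Ys L s₁),
            rprof (phiRef σ L) s₁ y ≤ M * rprof φ s₁ y ∧
            rprof φ s₁ y ≤ M * rprof (phiRef σ L) s₁ y ∧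
            |deriv (rprof φ s₁) y| ≤ M

end Vale.Agent.P264.Middle
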