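import Vale.Agent.P264.Middle.Bins

/-!
Bounded blocks of Calabi energy and comparability at entry give comparability with constants
independent of the bootstrap.
-/

namespace Vale.Agent.P264.Middle

open Set Filter Topology MeasureTheory
open scoped ContDiff
open Calc (Smooth2)

variable {L C X t x : ℝ} {φ₀ : ℝ → ℝ} {φ : ℝ → ℝ → ℝ}

/-- `(x^7 φ)'`. -/
noncomputable def momP1 (L : ℝ) (φ : ℝ → ℝ → ℝ) : ℝ → ℝ → ℝ := Calc.pdX TI (XJ L) (momP φ)

/-- `(x^7 φ)''`. -/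
noncomputable def momP2 (L : ℝ) (φ : ℝ → ℝ → ℝ) : ℝ → ℝ → ℝ := Calc.pdX TI (XJ L) (momP1 L φ)

theorem momP2_eq (hx : 0 < x) : momP2 L φ t x = 56 * x ^ 6 - x ^ 7 * curv L φ t x := by
  rw [curv, momP2, momP1]
  field_simp
  ring

theorem momP1_eq (h : IsFlow L 1 φ₀ φ) (ht : t ∈ TI) (hx : x ∈ XJ L) :
    momP1 L φ t x = 7 * x ^ 6 * φ t x + x ^ 7 * Calc.pdX TI (XJ L) φ t x := by
  have hd : HasDerivWithinAt (momP φ t)
      (7 * x ^ 6 * φ t x + x ^ 7 * Calc.pdX TI (XJ L) φ t x) (XJ L) x :=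
    (((hasDerivWithinAt_id x (XJ L)).fun_pow 7).fun_mul
      ((flow_smooth2 h).hasDerivWithinAt_x ht hx)).congr_deriv (by simp)
  rw [momP1, ← (smooth_momP h).derivWithin_x uniqueDiff_XJ ht hx,
    hd.derivWithin (uniqueDiff_XJ x hx)]

theorem momP1_right (h : IsFlow L 1 φ₀ φ) (hL : 0 < L) (ht : t ∈ TI) :
    momP1 L φ t L = -L ^ 7 := by
  have hLJ : L ∈ XJ L := ⟨hL, le_rfl⟩
  have hp := h.profile t ht
  have hd := ((hp.smooth.differentiableOn (by simp) L ⟨hL.le, le_rfl⟩).hasDerivWithinAt.mono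
    (Ioc_subset_Icc_self : XJ L ⊆ Icc 0 L))
  have hd' : derivWithin (φ t) (XJ L) L = -1 :=
    (hd.derivWithin (uniqueDiff_XJ L hLJ)).trans hp.slope_right
  rw [momP1_eq h ht hLJ, ← (flow_smooth2 h).derivWithin_x uniqueDiff_XJ ht hLJ, hd', hp.right]
  ring

theorem hasDerivAt_momP (h : IsFlow L 1 φ₀ φ) (ht : t ∈ TI) (hx : x ∈ Ioo 0 L) :
    HasDerivAt (momP φ t) (momP1 L φ t x) x :=
  (smooth_momP h).hasDerivAt_x ht (XJ_mem_nhds hx)

theorem smooth_momP1 (h : IsFlow L 1 φ₀ φ) : Smooth2 TI (XJ L) (momP1 L φ) :=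
  (smooth_momP h).pdX uniqueDiff_TI uniqueDiff_XJ

theorem intervalIntegrable_momP2 (h : IsFlow L 1 φ₀ φ) (ht : t ∈ TI) {a b : ℝ} (ha : 0 < a)
    (hab : a ≤ b) (hb : b ≤ L) :
    IntervalIntegrable (fun x => |momP2 L φ t x|) volume a b := by
  refine ContinuousOn.intervalIntegrable ?_
  rw [uIcc_of_le hab]
  exact ((((smooth_momP1 h).pdX uniqueDiff_TI uniqueDiff_XJ).slice_x ht).continuousOn.mono
    fun z hz => ⟨ha.trans_le hz.1, hz.2.trans hb⟩).abs

/-- Differences of `(x^7 φ)'` are bounded by the integral of the second derivative. -/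
theorem momP1_sub_le (h : IsFlow L 1 φ₀ φ) (ht : t ∈ TI) {a b : ℝ} (ha : 0 < a) (hab : a ≤ b)
    (hb : b ≤ L) {u v : ℝ} (hu : u ∈ Icc a b) (hv : v ∈ Icc a b) :
    |momP1 L φ t u - momP1 L φ t v| ≤ ∫ x in a..b, |momP2 L φ t x| := by
  wlog huv : v ≤ u generalizing u v
  · rw [abs_sub_comm]; exact this hv hu (le_of_not_ge huv)
  have hsub : Icc v u ⊆ XJ L := fun z hz =>
    ⟨ha.trans_le (hv.1.trans hz.1), (hz.2.trans hu.2).trans hb⟩
  have hi : IntervalIntegrable (fun x => momP2 L φ t x) volume v u := by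
    refine ContinuousOn.intervalIntegrable ?_
    rw [uIcc_of_le huv]
    exact (((smooth_momP1 h).pdX uniqueDiff_TI uniqueDiff_XJ).slice_x ht).continuousOn.mono hsub
  rw [← intervalIntegral.integral_eq_sub_of_hasDerivAt_of_le huv
    (f := momP1 L φ t) (((smooth_momP1 h).slice_x ht).continuousOn.mono hsub)
    (fun z hz => (smooth_momP1 h).hasDerivAt_x ht
      (XJ_mem_nhds ⟨ha.trans_le (hv.1.trans hz.1.le), hz.2.trans_le (hu.2.trans hb)⟩)) hi]
  exact (intervalIntegral.abs_integral_le_integral_abs huv).trans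
    (intervalIntegral.integral_mono_interval hv.1 huv hu.2
      (Eventually.of_forall fun x => abs_nonneg _) (intervalIntegrable_momP2 h ht ha hab hb))

/-- The second derivative over a block. -/
theorem int_momP2_le (h : IsFlow L 1 φ₀ φ) (ht : t ∈ TI) (hX : 0 < X) (hXL : X ≤ L)
    (hC : blk L φ t X ≤ C) :
    ∫ x in X..min (2 * X) L, |momP2 L φ t x| ≤ (3584 + 128 * (C + 1)) * X ^ 7 := by
  set m := min (2 * X) L
  have hm : X ≤ m := le_min (by linarith) hXL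
  have hmL : m ≤ L := min_le_right _ _
  have hcc : ContinuousOn (curv L φ t) (Icc X m) :=
    ((smooth_curv h).slice_x ht).continuousOn.mono fun z hz => ⟨hX.trans_le hz.1, hz.2.trans hmL⟩
  have ia : IntervalIntegrable (fun x => |curv L φ t x|) volume X m := by
    refine ContinuousOn.intervalIntegrable ?_; rw [uIcc_of_le hm]; exact hcc.abs
  calc ∫ x in X..m, |momP2 L φ t x|
      ≤ ∫ x in X..m, (56 * (64 * X ^ 6) + 128 * X ^ 7 * |curv L φ t x|) := by
        refine intervalIntegral.integral_mono_on hm (intervalIntegrable_momP2 h ht hX hm hmL)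
          (intervalIntegrable_const.add (ia.const_mul _)) fun x hx => ?_
        have hx0 : 0 < x := hX.trans_le hx.1
        have h2 : x ≤ 2 * X := hx.2.trans (min_le_left _ _)
        rw [momP2_eq hx0]
        refine (abs_sub _ _).trans (add_le_add ?_ ?_)
        · rw [abs_of_pos (by positivity)]
          calc 56 * x ^ 6 ≤ 56 * (2 * X) ^ 6 := by gcongr
            _ = _ := by ring
        · rw [abs_mul, abs_of_pos (pow_pos hx0 7)]
          calc x ^ 7 * |curv L φ t x| ≤ (2 * X) ^ 7 * |curv L φ t x| := by gcongr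
            _ = _ := by ring
    _ = (m - X) * (56 * (64 * X ^ 6)) + 128 * X ^ 7 * ∫ x in X..m, |curv L φ t x| := by
        rw [intervalIntegral.integral_add intervalIntegrable_const (ia.const_mul _),
          intervalIntegral.integral_const, smul_eq_mul, intervalIntegral.integral_const_mul]
    _ ≤ X * (56 * (64 * X ^ 6)) + 128 * X ^ 7 * (C + 1) :=
        add_le_add (mul_le_mul_of_nonneg_right (by linarith [min_le_left (2 * X) L]) (by positivity))
          (mul_le_mul_of_nonneg_left (int_abs_curv_le h ht hX le_rfl hm le_rfl hC) (by positivity))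
    _ = _ := by ring

/-- Small variation of `(x^7 φ)'` near the right end. -/
theorem momP1_end (h : IsFlow L 1 φ₀ φ) (ht : t ∈ TI) (hL : 0 < L) (hC0 : 0 ≤ C)
    (hC : blk L φ t (L / 2) ≤ C) (hx : x ∈ Ioo ((1 - 1 / (448 * (C + 1))) * L) L) :
    momP1 L φ t x ≤ -(L ^ 7 / 2) := by
  set δ := 1 / (448 * (C + 1)) with hδ_def
  have hδ0 : 0 < δ := by positivity
  have hδ : δ ≤ 1 / 2 := by
    rw [hδ_def, div_le_div_iff₀ (by positivity) two_pos]; linarith
  have hx2 : L / 2 ≤ x := by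
    have : δ * L ≤ 1 / 2 * L := mul_le_mul_of_nonneg_right hδ hL.le
    linarith [hx.1]
  have hx0 : 0 < x := by linarith
  have hxd : L - x ≤ δ * L := by linarith [hx.1]
  have hd := momP1_sub_le h ht hx0 hx.2.le le_rfl (u := x) (v := L) ⟨le_rfl, hx.2.le⟩
    ⟨hx.2.le, le_rfl⟩
  rw [momP1_right h hL ht] at hd
  set k : ℝ := L / (8 * (C + 1)) with hk_def
  have hk : 0 < k := by positivity
  have iq := intervalIntegrable_curv h ht hx0 hx.2.le le_rfl
  have hint : ∫ z in x..L, |momP2 L φ t z|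
      ≤ ∫ z in x..L, (56 * L ^ 6 + L ^ 7 / (2 * k) + k / 2 * (z ^ 7 * curv L φ t z ^ 2)) := by
    refine intervalIntegral.integral_mono_on hx.2.le
      (intervalIntegrable_momP2 h ht hx0 hx.2.le le_rfl)
      (intervalIntegrable_const.add (iq.const_mul _)) fun z hz => ?_
    have hz0 : 0 < z := hx0.trans_le hz.1
    rw [momP2_eq hz0]
    refine (abs_sub _ _).trans ?_
    rw [abs_of_pos (show 0 < 56 * z ^ 6 by positivity), abs_mul, abs_of_pos (pow_pos hz0 7),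
      add_assoc]
    refine add_le_add (by gcongr; exact hz.2) ?_
    have s := two_mul_le_add_sq (k * |curv L φ t z|) 1
    rw [mul_pow, sq_abs] at s
    calc z ^ 7 * |curv L φ t z| ≤ z ^ 7 * ((k ^ 2 * curv L φ t z ^ 2 + 1 ^ 2) / (2 * k)) := by
          refine mul_le_mul_of_nonneg_left ?_ (pow_nonneg hz0.le 7)
          rw [le_div_iff₀ (by positivity)]
          linarith
      _ = z ^ 7 / (2 * k) + k / 2 * (z ^ 7 * curv L φ t z ^ 2) := by field_simp; ring
      _ ≤ _ := by gcongr; exact hz.2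
  have hq : ∫ z in x..L, z ^ 7 * curv L φ t z ^ 2 ≤ (L / 2) ^ 6 * C := by
    have e : min (2 * (L / 2)) L = L := by rw [min_eq_right (by linarith)]
    have := mul_le_mul_of_nonneg_left hC (pow_nonneg (half_pos hL).le 6)
    rw [blk, e, mul_div_cancel₀ _ (by positivity)] at this
    refine le_trans (intervalIntegral.integral_mono_interval hx2 hx.2.le le_rfl ?_
      (intervalIntegrable_curv h ht (half_pos hL) (by linarith) le_rfl)) this
    exact (ae_restrict_mem measurableSet_Ioc).mono fun z hz =>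
      mul_nonneg (pow_nonneg (by linarith [hz.1]) 7) (sq_nonneg _)
  rw [intervalIntegral.integral_add intervalIntegrable_const (iq.const_mul _),
    intervalIntegral.integral_const, smul_eq_mul, intervalIntegral.integral_const_mul] at hint
  have h7 : (0:ℝ) < L ^ 7 := by positivity
  have b1 : (L - x) * (56 * L ^ 6 + L ^ 7 / (2 * k)) ≤ L ^ 7 / 4 := by
    calc (L - x) * (56 * L ^ 6 + L ^ 7 / (2 * k))
        ≤ δ * L * (56 * L ^ 6 + L ^ 7 / (2 * k)) := mul_le_mul_of_nonneg_right hxd (by positivity)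
      _ = L ^ 7 * (56 / (448 * (C + 1)) + 4 / 448) := by
          rw [hδ_def, hk_def]; field_simp; ring
      _ ≤ L ^ 7 * (56 / 448 + 4 / 448) := by
          refine mul_le_mul_of_nonneg_left (add_le_add ?_ le_rfl) h7.le
          exact div_le_div_of_nonneg_left (by norm_num) (by norm_num) (by linarith)
      _ ≤ L ^ 7 / 4 := by linarith
  have b2 : k / 2 * ((L / 2) ^ 6 * C) ≤ L ^ 7 / 4 := by
    have : k / 2 * ((L / 2) ^ 6 * C) = L ^ 7 * (C / (C + 1)) / 1024 := by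
      rw [hk_def]; field_simp; ring
    rw [this]
    have h1 : C / (C + 1) ≤ 1 := (div_le_one (by linarith)).2 (by linarith)
    linarith [mul_le_mul_of_nonneg_left h1 h7.le]
  have b3 := mul_le_mul_of_nonneg_left hq (by positivity : 0 ≤ k / 2)
  linarith [(abs_le.1 hd).2]

/-- Hypotheses on the middle region at time `t`: bounded blocks and comparability at entry. -/
structure Ctrl (L R t C K₀ : ℝ) (φ₀ : ℝ → ℝ) (φ : ℝ → ℝ → ℝ) : Prop where
  flow : IsFlow L 1 φ₀ φ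
  R_pos : 0 < R
  long : 8 * R ≤ L
  t_nonneg : 0 ≤ t
  t_lt : t < 1
  K_one : 1 ≤ K₀
  C_nonneg : 0 ≤ C
  blocks : ∀ r ∈ Icc 0 t, ∀ Y ∈ Icc (R * Real.sqrt (1 - r) / 16) L, blk L φ r Y ≤ C
  init : Comparable L K₀ φ 0 (Icc R L)
  inner : ∀ r ∈ Icc 0 t,
    Comparable L K₀ φ r (Icc (R * Real.sqrt (1 - r)) (4 * (R * Real.sqrt (1 - r))))

variable {R K₀ H c : ℝ}

theorem Ctrl.lo_pos (hc : Ctrl L R t C K₀ φ₀ φ) : 0 < R * Real.sqrt (1 - t) :=
  mul_pos hc.R_pos (Real.sqrt_pos.2 (by linarith [hc.t_lt]))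

theorem Ctrl.lo_le (hc : Ctrl L R t C K₀ φ₀ φ) : R * Real.sqrt (1 - t) ≤ R :=
  mul_le_of_le_one_right hc.R_pos.le (Real.sqrt_le_one.2 (by linarith [hc.t_nonneg]))

theorem Ctrl.tI (hc : Ctrl L R t C K₀ φ₀ φ) : t ∈ TI := ⟨hc.t_nonneg, hc.t_lt.le⟩

theorem Ctrl.L_pos (hc : Ctrl L R t C K₀ φ₀ φ) : 0 < L := by linarith [hc.R_pos, hc.long]

theorem Ctrl.blk_le (hc : Ctrl L R t C K₀ φ₀ φ) (hX : R * Real.sqrt (1 - t) ≤ X) (hXL : X ≤ L) :
    blk L φ t X ≤ C :=
  hc.blocks t ⟨hc.t_nonneg, le_rfl⟩ X ⟨by linarith [hc.lo_pos], hXL⟩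

/-- The entry time of a block. -/
theorem Ctrl.entry (hc : Ctrl L R t C K₀ φ₀ φ) (hX : R * Real.sqrt (1 - t) ≤ X)
    (hXL : X ≤ L / 2) : ∃ te, 0 ≤ te ∧ te ≤ t ∧ t - te ≤ X ^ 2 / R ^ 2 ∧
      (∀ r ∈ Icc te t, blk L φ r X ≤ C) ∧ Comparable L K₀ φ te (Icc X (2 * X)) := by
  have hR0 := hc.R_pos
  have hX0 : 0 < X := hc.lo_pos.trans_le hX
  have hL0 := hc.L_pos
  have hblkX : ∀ te, 0 ≤ te → (∀ r ∈ Icc te t, R * Real.sqrt (1 - r) / 16 ≤ X) →
      ∀ r ∈ Icc te t, blk L φ r X ≤ C := fun te h0 hle r hr =>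
    hc.blocks r ⟨h0.trans hr.1, hr.2⟩ X ⟨hle r hr, by linarith⟩
  rcases le_or_gt R X with hbig | hsmall
  · refine ⟨0, le_rfl, hc.t_nonneg, ?_, hblkX 0 le_rfl fun r hr => ?_,
      fun z hz => hc.init z ⟨hbig.trans hz.1, hz.2.trans (by linarith)⟩⟩
    · rw [sub_zero, le_div_iff₀ (by positivity : (0:ℝ) < R ^ 2)]
      calc t * R ^ 2 ≤ 1 * R ^ 2 := by gcongr; exact hc.t_lt.le
        _ ≤ X ^ 2 := by rw [one_mul]; gcongr
    · have : R * Real.sqrt (1 - r) ≤ R :=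
        mul_le_of_le_one_right hR0.le (Real.sqrt_le_one.2 (by linarith [hr.1]))
      linarith
  · have hq0 : 0 ≤ X / R := by positivity
    have hq1 : X / R < 1 := (div_lt_one hR0).2 hsmall
    set te := 1 - (X / R) ^ 2 with hte_def
    have hlote : R * Real.sqrt (1 - te) = X := by
      rw [hte_def, sub_sub_cancel, Real.sqrt_sq hq0, mul_div_cancel₀ _ hR0.ne']
    have h0 : 0 ≤ te := by linarith [pow_le_one₀ (n := 2) hq0 hq1.le]
    have hte : te ≤ t := by
      have : Real.sqrt (1 - t) ≤ X / R := by rw [le_div_iff₀ hR0, mul_comm]; exact hX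
      rw [Real.sqrt_le_iff] at this
      linarith [this.2]
    refine ⟨te, h0, hte, ?_, hblkX te h0 fun r hr => ?_, fun z hz => hc.inner te ⟨h0, hte⟩ z ?_⟩
    · rw [← div_pow, hte_def]; linarith [hc.t_lt]
    · have : R * Real.sqrt (1 - r) ≤ R * Real.sqrt (1 - te) :=
        mul_le_mul_of_nonneg_left (Real.sqrt_le_sqrt (by linarith [hr.1])) hR0.le
      linarith
    · rw [hlote]
      exact ⟨hz.1, by linarith [hz.2]⟩

/-- An upper point in a bin. -/
theorem Ctrl.bin_up (hc : Ctrl L R t C K₀ φ₀ φ)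
    (hH : ∀ u ∈ Icc (-1:ℝ) 1, |deriv (deriv hat) u| ≤ H) (hc0 : 0 < c)
    (hR2 : 4 * K₀ * H * (C + 1) < c ^ 3 * R ^ 2) (hX : R * Real.sqrt (1 - t) ≤ X)
    (hXL : X ≤ L / 2) {a b : ℝ} (ha : X ≤ a) (hab : a < b) (hb : b ≤ 2 * X)
    (hw : c * X ≤ (b - a) / 2) (hbL : b < L) :
    ∃ ξ ∈ Icc a b, momP φ t ξ ≤ 1024 * K₀ * X ^ 8 := by
  have hX0 : 0 < X := hc.lo_pos.trans_le hX
  have hK := hc.K_one
  obtain ⟨te, h0, hte, hdur, hbl, hcmp⟩ := hc.entry hX hXL
  obtain ⟨ξ, hξ, hle⟩ := (bin_points (μ := 1) (U := 2 * K₀ * X) hc.flow hH hc0 hK hc.R_pos hR2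
    hX0 ha hab hb hbL hw h0 hte hc.t_lt.le hdur hbl).1 (by positivity) le_rfl fun z hz => by
      refine ((le_abs_self _).trans (hcmp z ⟨ha.trans hz.1, hz.2.trans hb⟩).1).trans ?_
      calc K₀ * base L z ≤ K₀ * (2 * X) := mul_le_mul_of_nonneg_left
            ((min_le_left _ _).trans (hz.2.trans hb)) (by linarith)
        _ = 2 * K₀ * X := by ring
  refine ⟨ξ, hξ, ?_⟩
  have hξ0 : 0 < ξ := hX0.trans_le (ha.trans hξ.1)
  calc momP φ t ξ ≤ (2 * X) ^ 7 * (4 * (2 * K₀ * X)) :=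
        mul_le_mul (pow_le_pow_left₀ hξ0.le (hξ.2.trans hb) 7) hle
          ((hc.flow.profile t hc.tI).pos ξ ⟨hξ0, hξ.2.trans_lt hbL⟩).le (by positivity)
    _ = _ := by ring

/-- Bounds on `x^7 φ` and its derivative over a block. -/
theorem Ctrl.block_up (hc : Ctrl L R t C K₀ φ₀ φ)
    (hH : ∀ u ∈ Icc (-1:ℝ) 1, |deriv (deriv hat) u| ≤ H) (hc0 : 0 < c) (hc1 : c ≤ 1 / 16)
    (hR2 : 4 * K₀ * H * (C + 1) < c ^ 3 * R ^ 2) (hX : R * Real.sqrt (1 - t) ≤ X)
    (h2 : 2 * X ≤ L) : ∀ z ∈ Icc X (2 * X),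
      momP φ t z ≤ (3584 + 128 * (C + 1) + 5120 * K₀) * X ^ 8 ∧
      |momP1 L φ t z| ≤ (3584 + 128 * (C + 1) + 4096 * K₀) * X ^ 7 := by
  have h := hc.flow
  have htI := hc.tI
  have hX0 : 0 < X := hc.lo_pos.trans_le hX
  have hK := hc.K_one
  have hC := hc.C_nonneg
  have hcX : c * X ≤ 1 / 16 * X := mul_le_mul_of_nonneg_right hc1 hX0.le
  obtain ⟨ξ1, hξ1, hm1⟩ := hc.bin_up hH hc0 hR2 hX (by linarith) (a := X) (b := 5 * X / 4) le_rfl
    (by linarith) (by linarith) (by linarith) (by linarith)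
  obtain ⟨ξ2, hξ2, hm2⟩ := hc.bin_up hH hc0 hR2 hX (by linarith) (a := 3 * X / 2) (b := 7 * X / 4)
    (by linarith) (by linarith) (by linarith) (by linarith) (by linarith)
  have hlt : ξ1 < ξ2 := by linarith [hξ1.2, hξ2.1]
  obtain ⟨η, hη, hslope⟩ := exists_hasDerivAt_eq_slope (momP φ t) (momP1 L φ t) hlt
    (((smooth_momP h).slice_x htI).continuousOn.mono fun z hz =>
      ⟨by linarith [hz.1, hξ1.1], by linarith [hz.2, hξ2.2]⟩)
    (fun z hz => hasDerivAt_momP h htI ⟨by linarith [hz.1, hξ1.1], by linarith [hz.2, hξ2.2]⟩)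
  have hP0 : ∀ ξ ∈ Icc X (7 * X / 4), 0 ≤ momP φ t ξ := fun ξ hξ =>
    mul_nonneg (pow_nonneg (by linarith [hξ.1]) 7)
      ((h.profile t htI).pos ξ ⟨by linarith [hξ.1], by linarith [hξ.2]⟩).le
  have p1 := hP0 ξ1 ⟨hξ1.1, by linarith [hξ1.2]⟩
  have p2 := hP0 ξ2 ⟨by linarith [hξ2.1], hξ2.2⟩
  have hη' : |momP1 L φ t η| ≤ 4096 * K₀ * X ^ 7 := by
    rw [hslope, abs_div, abs_of_pos (sub_pos.2 hlt), div_le_iff₀ (sub_pos.2 hlt)]
    calc |momP φ t ξ2 - momP φ t ξ1| ≤ 1024 * K₀ * X ^ 8 :=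
          abs_le.2 ⟨by linarith, by linarith⟩
      _ = 4096 * K₀ * X ^ 7 * (X / 4) := by ring
      _ ≤ 4096 * K₀ * X ^ 7 * (ξ2 - ξ1) :=
          mul_le_mul_of_nonneg_left (by linarith [hξ1.2, hξ2.1]) (by positivity)
  have hI := int_momP2_le h htI hX0 (by linarith) (hc.blk_le hX (by linarith))
  rw [min_eq_left h2] at hI
  have hder : ∀ z ∈ Icc X (2 * X),
      |momP1 L φ t z| ≤ (3584 + 128 * (C + 1) + 4096 * K₀) * X ^ 7 := fun z hz => by
    have := momP1_sub_le h htI hX0 (by linarith) h2 (u := z) (v := η) hz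
      ⟨by linarith [hη.1, hξ1.1], by linarith [hη.2, hξ2.2]⟩
    calc |momP1 L φ t z| = |(momP1 L φ t z - momP1 L φ t η) + momP1 L φ t η| := by
          rw [sub_add_cancel]
      _ ≤ |momP1 L φ t z - momP1 L φ t η| + |momP1 L φ t η| := abs_add_le _ _
      _ ≤ (3584 + 128 * (C + 1)) * X ^ 7 + 4096 * K₀ * X ^ 7 := add_le_add (this.trans hI) hη'
      _ = _ := by ring
  intro z hz
  refine ⟨?_, hder z hz⟩
  have hξ1m : ξ1 ∈ Icc X (2 * X) := ⟨hξ1.1, by linarith [hξ1.2]⟩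
  have hJ : Icc X (2 * X) ⊆ XJ L := fun w hw => ⟨hX0.trans_le hw.1, hw.2.trans h2⟩
  have hlip := (convex_Icc X (2 * X)).norm_image_sub_le_of_norm_hasDerivWithin_le
    (f := momP φ t) (f' := momP1 L φ t)
    (fun w hw => ((smooth_momP h).hasDerivWithinAt_x htI (hJ hw)).mono hJ) hder hξ1m hz
  simp only [Real.norm_eq_abs] at hlip
  have : (3584 + 128 * (C + 1) + 4096 * K₀) * X ^ 7 * |z - ξ1|
      ≤ (3584 + 128 * (C + 1) + 4096 * K₀) * X ^ 7 * X := by
    refine mul_le_mul_of_nonneg_left (abs_le.2 ⟨?_, ?_⟩) (by positivity)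
    · linarith [hz.1, hξ1.2]
    · linarith [hz.2, hξ1.1]
  linarith [le_abs_self (momP φ t z - momP φ t ξ1)]

/-- The slope is controlled by `(x^7 φ)'` and `φ / x`. -/
theorem Ctrl.slope_le (hc : Ctrl L R t C K₀ φ₀ φ) {z P u D : ℝ} (hz : z ∈ Ioo 0 L)
    (h1 : |momP1 L φ t z| ≤ P * z ^ 7) (h2 : φ t z ≤ u * z) (hle : P + 7 * u ≤ D) :
    |Calc.pdX TI (XJ L) φ t z| ≤ D := by
  have hz0 := hz.1
  have hp := (hc.flow.profile t hc.tI).pos z hz
  have e : Calc.pdX TI (XJ L) φ t z = momP1 L φ t z / z ^ 7 - 7 * φ t z / z := by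
    rw [momP1_eq hc.flow hc.tI ⟨hz.1, hz.2.le⟩]
    field_simp
    ring
  rw [e]
  refine (abs_sub _ _).trans (le_trans (add_le_add ?_ ?_) hle)
  · rwa [abs_div, abs_of_pos (pow_pos hz0 7), div_le_iff₀ (pow_pos hz0 7)]
  · rw [abs_of_pos (by positivity), div_le_iff₀ hz0, mul_assoc 7 u z]
    exact mul_le_mul_of_nonneg_left h2 (by norm_num)

/-- The constant of the upper bound and the slope bound. -/
noncomputable def upC (C K₀ : ℝ) : ℝ := 10000000 * (C + 1) + 100000 * K₀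

/-- Upper bound and slope over a block. -/
theorem Ctrl.use_block (hc : Ctrl L R t C K₀ φ₀ φ)
    (hH : ∀ u ∈ Icc (-1:ℝ) 1, |deriv (deriv hat) u| ≤ H) (hc0 : 0 < c) (hc1 : c ≤ 1 / 16)
    (hR2 : 4 * K₀ * H * (C + 1) < c ^ 3 * R ^ 2) (hX : R * Real.sqrt (1 - t) ≤ X) {z : ℝ}
    (hXz : X ≤ z) (hz2 : z ≤ 2 * X) (h2 : 2 * X ≤ L) (hzL : z < L) :
    φ t z ≤ upC C K₀ * X ∧ |Calc.pdX TI (XJ L) φ t z| ≤ upC C K₀ := by
  have hX0 : 0 < X := hc.lo_pos.trans_le hX
  have hp := (hc.flow.profile t hc.tI).pos z ⟨hX0.trans_le hXz, hzL⟩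
  have hK := hc.K_one
  have hC := hc.C_nonneg
  obtain ⟨hP, hP1⟩ := hc.block_up hH hc0 hc1 hR2 hX h2 z ⟨hXz, hz2⟩
  have h7 : X ^ 7 ≤ z ^ 7 := pow_le_pow_left₀ hX0.le hXz 7
  have hup : φ t z ≤ (3584 + 128 * (C + 1) + 5120 * K₀) * X := by
    refine le_of_mul_le_mul_left ?_ (pow_pos hX0 7)
    calc X ^ 7 * φ t z ≤ momP φ t z := mul_le_mul_of_nonneg_right h7 hp.le
      _ ≤ _ := hP.trans_eq (by ring)
  refine ⟨hup.trans (mul_le_mul_of_nonneg_right (by unfold upC; linarith) hX0.le),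
    hc.slope_le ⟨hX0.trans_le hXz, hzL⟩ (hP1.trans (mul_le_mul_of_nonneg_left h7 (by linarith)))
      (hup.trans (mul_le_mul_of_nonneg_left hXz (by linarith))) (by unfold upC; linarith)⟩

/-- Upper bound and slope at the right end. -/
theorem Ctrl.use_end (hc : Ctrl L R t C K₀ φ₀ φ) {z : ℝ} (hz : z ∈ Ioo (L / 2) L) :
    φ t z ≤ upC C K₀ * (L - z) ∧ |Calc.pdX TI (XJ L) φ t z| ≤ upC C K₀ := by
  have h := hc.flow
  have htI := hc.tI
  have hL0 := hc.L_pos
  have hz0 : 0 < z := by linarith [hz.1]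
  have hp := (h.profile t htI).pos z ⟨hz0, hz.2⟩
  have hK := hc.K_one
  have hC := hc.C_nonneg
  set A := 3584 + 128 * (C + 1) with hA_def
  have hA0 : 0 ≤ A := by rw [hA_def]; linarith
  have hI := int_momP2_le h htI (half_pos hL0) (by linarith)
    (hc.blk_le (X := L / 2) (by linarith [hc.lo_le, hc.long, hc.R_pos]) (by linarith))
  rw [min_eq_right (by linarith), ← hA_def] at hI
  have hP1 : ∀ w ∈ Icc z L, |momP1 L φ t w| ≤ (1 + A) * L ^ 7 := fun w hw => by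
    have := momP1_sub_le h htI (half_pos hL0) (by linarith) le_rfl (u := w) (v := L)
      ⟨by linarith [hw.1, hz.1], hw.2⟩ ⟨by linarith, le_rfl⟩
    rw [momP1_right h hL0 htI] at this
    have hA7 : A * (L / 2) ^ 7 ≤ A * L ^ 7 := by gcongr; linarith
    rw [abs_le] at this ⊢
    constructor <;> linarith [pow_pos hL0 7, this.1, this.2]
  have hJ : Icc z L ⊆ XJ L := fun w hw => ⟨hz0.trans_le hw.1, hw.2⟩
  have hlip := (convex_Icc z L).norm_image_sub_le_of_norm_hasDerivWithin_le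
    (f := momP φ t) (f' := momP1 L φ t)
    (fun w hw => ((smooth_momP h).hasDerivWithinAt_x htI (hJ hw)).mono hJ) hP1
    (right_mem_Icc.2 hz.2.le) (left_mem_Icc.2 hz.2.le)
  simp only [Real.norm_eq_abs, momP, (h.profile t htI).right, mul_zero, sub_zero] at hlip
  rw [abs_of_pos (mul_pos (pow_pos hz0 7) hp), abs_of_neg (sub_neg.2 hz.2), neg_sub] at hlip
  have h7 : L ^ 7 ≤ 128 * z ^ 7 := by
    calc L ^ 7 ≤ (2 * z) ^ 7 := pow_le_pow_left₀ hL0.le (by linarith [hz.1]) 7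
      _ = _ := by ring
  have hup : φ t z ≤ 128 * (1 + A) * (L - z) := by
    refine le_of_mul_le_mul_left ?_ (pow_pos hz0 7)
    calc z ^ 7 * φ t z ≤ (1 + A) * L ^ 7 * (L - z) := hlip
      _ ≤ (1 + A) * (128 * z ^ 7) * (L - z) := by gcongr; linarith [hz.2]
      _ = _ := by ring
  refine ⟨hup.trans (mul_le_mul_of_nonneg_right (by rw [hA_def]; unfold upC; linarith)
      (by linarith [hz.2])),
    hc.slope_le ⟨hz0, hz.2⟩ (P := 128 * (1 + A)) ?_
      (hup.trans (mul_le_mul_of_nonneg_left (by linarith [hz.1]) (by positivity)))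
      (by rw [hA_def]; unfold upC; linarith)⟩
  calc |momP1 L φ t z| ≤ (1 + A) * L ^ 7 := hP1 z ⟨le_rfl, hz.2.le⟩
    _ ≤ (1 + A) * (128 * z ^ 7) := mul_le_mul_of_nonneg_left h7 (by linarith)
    _ = _ := by ring

/-- Upper bound and slope in the whole middle region. -/
theorem Ctrl.up_facts (hc : Ctrl L R t C K₀ φ₀ φ)
    (hH : ∀ u ∈ Icc (-1:ℝ) 1, |deriv (deriv hat) u| ≤ H) (hc0 : 0 < c) (hc1 : c ≤ 1 / 16)
    (hR2 : 4 * K₀ * H * (C + 1) < c ^ 3 * R ^ 2) {z : ℝ}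
    (hz : z ∈ Ico (R * Real.sqrt (1 - t)) L) :
    φ t z ≤ upC C K₀ * base L z ∧ |Calc.pdX TI (XJ L) φ t z| ≤ upC C K₀ := by
  have hz0 : 0 < z := hc.lo_pos.trans_le hz.1
  have hU : 0 ≤ upC C K₀ := by
    have := hc.K_one
    have := hc.C_nonneg
    unfold upC; linarith
  have hlo := hc.lo_le
  have hL := hc.long
  have hR := hc.R_pos
  rcases le_or_gt z (L / 2) with h2 | h2
  · have hb : base L z = z := min_eq_left (by linarith)
    rcases le_or_gt z (L / 4) with h4 | h4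
    · obtain ⟨hu, hs⟩ := hc.use_block hH hc0 hc1 hR2 hz.1 (z := z) le_rfl (by linarith)
        (by linarith) hz.2
      exact ⟨by rwa [hb], hs⟩
    · obtain ⟨hu, hs⟩ := hc.use_block hH hc0 hc1 hR2 (X := L / 4) (by linarith) (z := z) h4.le
        (by linarith) (by linarith) hz.2
      exact ⟨by rw [hb]; exact hu.trans (mul_le_mul_of_nonneg_left h4.le hU), hs⟩
  · have hb : base L z = L - z := min_eq_right (by linarith)
    rw [hb]
    exact hc.use_end ⟨h2, hz.2⟩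

/-- A bin keeps a point of the size it had at entry, hence by the slope bound all its points. -/
theorem Ctrl.lower_point (hc : Ctrl L R t C K₀ φ₀ φ)
    (hH : ∀ u ∈ Icc (-1:ℝ) 1, |deriv (deriv hat) u| ≤ H) (hc0 : 0 < c) (hc1 : c ≤ 1 / 16)
    (hR2 : 4 * K₀ * H * (C + 1) < c ^ 3 * R ^ 2) {a b μ : ℝ}
    (hX : R * Real.sqrt (1 - t) ≤ X) (hX2 : X ≤ L / 2) (ha : X ≤ a) (hab : a < b)
    (hb : b ≤ 2 * X) (hbL : b < L) (hw : c * X ≤ (b - a) / 2) (hμ : 0 < μ) (hμX : μ ≤ X)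
    (hbase : ∀ z ∈ Icc a b, K₀ * μ ≤ base L z) :
    μ / 4 - upC C K₀ * (b - a) ≤ φ t a := by
  have h := hc.flow
  have hK := hc.K_one
  have hX0 : 0 < X := hc.lo_pos.trans_le hX
  obtain ⟨te, h0, hte, hdur, hbl, hcmp⟩ := hc.entry hX hX2
  have hteI : te ∈ TI := ⟨h0, hte.trans hc.t_lt.le⟩
  obtain ⟨ξ, hξ, hle⟩ := (bin_points (μ := μ) (U := 1) h hH hc0 hK hc.R_pos hR2 hX0 ha hab hb hbL
    hw h0 hte hc.t_lt.le hdur hbl).2 hμ hμX fun z hz => by
      have hz' : z ∈ Ioo 0 L := ⟨hX0.trans_le (ha.trans hz.1), hz.2.trans_lt hbL⟩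
      have := (hbase z hz).trans (hcmp z ⟨ha.trans hz.1, hz.2.trans hb⟩).2
      rw [abs_of_pos ((h.profile te hteI).pos z hz')] at this
      exact le_of_mul_le_mul_left this (by linarith)
  have hJ : Icc a b ⊆ XJ L := fun w hw => ⟨hX0.trans_le (ha.trans hw.1), hw.2.trans hbL.le⟩
  have hlip := (convex_Icc a b).norm_image_sub_le_of_norm_hasDerivWithin_le
    (f := φ t) (f' := fun w => Calc.pdX TI (XJ L) φ t w) (C := upC C K₀)
    (fun w hw => ((flow_smooth2 h).hasDerivWithinAt_x hc.tI (hJ hw)).mono hJ)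
    (fun w hw => (hc.up_facts hH hc0 hc1 hR2
      ⟨hX.trans (ha.trans hw.1), hw.2.trans_lt hbL⟩).2) (left_mem_Icc.2 hab.le) hξ
  simp only [Real.norm_eq_abs] at hlip
  have : upC C K₀ * |ξ - a| ≤ upC C K₀ * (b - a) := by
    refine mul_le_mul_of_nonneg_left ?_ ?_
    · rw [abs_of_nonneg (by linarith [hξ.1])]
      linarith [hξ.2]
    · have := hc.C_nonneg
      unfold upC; linarith
  linarith [le_abs_self (φ t ξ - φ t a)]

/-- Lower bound near the right end. -/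
theorem Ctrl.lower_end (hc : Ctrl L R t C K₀ φ₀ φ) {x : ℝ}
    (hx : x ∈ Ioo ((1 - 1 / (448 * (C + 1))) * L) L) (hx0 : 0 < x) :
    L - x ≤ 2 * φ t x := by
  have h := hc.flow
  have htI := hc.tI
  have hL0 := hc.L_pos
  have hneg : ∀ z ∈ interior (Icc x L), deriv (φ t) z ≤ -(1 / 2) := by
    intro z hz
    rw [interior_Icc] at hz
    have hz' : z ∈ Ioo 0 L := ⟨hx0.trans hz.1, hz.2⟩
    have hz0 := hz'.1
    rw [(flow_smooth2 h).deriv_x htI (XJ_mem_nhds hz')]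
    have hend := momP1_end h htI hL0 hc.C_nonneg
      (hc.blk_le (X := L / 2) (by linarith [hc.lo_le, hc.long, hc.R_pos]) (by linarith))
      (x := z) ⟨lt_trans hx.1 hz.1, hz.2⟩
    rw [momP1_eq h htI ⟨hz'.1, hz'.2.le⟩] at hend
    have h1 : 0 ≤ 7 * z ^ 6 * φ t z :=
      mul_nonneg (by positivity) ((h.profile t htI).pos z hz').le
    refine le_of_mul_le_mul_left ?_ (pow_pos hz0 7)
    linarith [pow_le_pow_left₀ hz0.le hz.2.le 7]
  have hmv := (convex_Icc x L).image_sub_le_mul_sub_of_deriv_le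
    (((flow_smooth2 h).slice_x htI).continuousOn.mono fun z hz => ⟨hx0.trans_le hz.1, hz.2⟩)
    (((flow_smooth2 h).slice_x htI).differentiableOn (by simp) |>.mono fun z hz => by
      rw [interior_Icc] at hz; exact ⟨hx0.trans hz.1, hz.2.le⟩) hneg
    x (left_mem_Icc.2 hx.2.le) L (right_mem_Icc.2 hx.2.le) hx.2.le
  rw [(h.profile t htI).right] at hmv
  linarith

/-- Comparability and a slope bound in the middle region, with constants independent of `R`. -/
theorem profile_bound (C K₀ : ℝ) (hC : 0 ≤ C) (hK₀ : 1 ≤ K₀) :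
    ∃ K R₂ : ℝ, 1 ≤ K ∧ 0 < R₂ ∧ ∀ R : ℝ, R₂ ≤ R → ∀ L t : ℝ,
    ∀ (φ₀ : ℝ → ℝ) (φ : ℝ → ℝ → ℝ), Ctrl L R t C K₀ φ₀ φ →
      ∀ x ∈ Ico (R * Real.sqrt (1 - t)) L, base L x ≤ K * φ t x ∧ φ t x ≤ K * base L x ∧
        |Calc.pdX TI (XJ L) φ t x| ≤ K := by
  obtain ⟨H, hH1, hH⟩ := exists_hat_bound
  have hD : 2 ≤ upC C K₀ := by unfold upC; linarith
  have hδ0 : (0:ℝ) < 1 / (448 * (C + 1)) := by positivity
  have hδ1 : 1 / (448 * (C + 1)) ≤ (1:ℝ) / 448 :=
    one_div_le_one_div_of_le (by norm_num) (by linarith)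
  set δ := 1 / (448 * (C + 1)) with hδ_def
  set D := upC C K₀
  set h₀ := δ / (16 * K₀ * D) with hh_def
  have hh0 : 0 < h₀ := by positivity
  have hDh : D * h₀ = δ / (16 * K₀) := by rw [hh_def]; field_simp
  have hh2 : h₀ ≤ δ / 16 := by
    rw [hh_def]
    refine div_le_div_of_nonneg_left hδ0.le (by norm_num) ?_
    calc (16:ℝ) = 16 * 1 * 1 := by norm_num
      _ ≤ 16 * K₀ * D := by gcongr; linarith
  set c := h₀ / 2 with hc_def
  have hc0 : 0 < c := by positivity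
  have hc1 : c ≤ 1 / 16 := by linarith
  refine ⟨D + 16 * K₀ / δ, Real.sqrt (4 * K₀ * H * (C + 1) / c ^ 3) + 1,
    by linarith [div_nonneg (by linarith : (0:ℝ) ≤ 16 * K₀) hδ0.le], by positivity,
    fun R hR L t φ₀ φ hc x hx => ?_⟩
  have hR0 := hc.R_pos
  have hR2 : 4 * K₀ * H * (C + 1) < c ^ 3 * R ^ 2 := by
    rw [mul_comm (c ^ 3), ← div_lt_iff₀ (pow_pos hc0 3), ← Real.sqrt_lt' hR0]
    linarith
  have hx0 : 0 < x := hc.lo_pos.trans_le hx.1
  have hp := (hc.flow.profile t hc.tI).pos x ⟨hx0, hx.2⟩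
  have hbase0 : 0 ≤ base L x := base_nonneg hx0.le hx.2.le
  have hδK : 0 ≤ 16 * K₀ / δ := by positivity
  obtain ⟨hu, hs⟩ := hc.up_facts hH hc0 hc1 hR2 hx
  refine ⟨?_, hu.trans (mul_le_mul_of_nonneg_right (by linarith) hbase0), by linarith⟩
  have hL0 := hc.L_pos
  have hlo := hc.lo_le
  have hL := hc.long
  suffices h : base L x ≤ 16 * K₀ / δ * φ t x ∨ base L x ≤ 2 * φ t x by
    rw [add_mul]
    rcases h with h | h
    · linarith [mul_nonneg (show 0 ≤ D by linarith) hp.le]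
    · linarith [mul_le_mul_of_nonneg_right hD hp.le, mul_nonneg hδK hp.le]
  rcases le_or_gt x (L / 2) with h2 | h2
  · have hh3 : h₀ * x ≤ 1 / 4 * x := mul_le_mul_of_nonneg_right (by linarith) hx0.le
    have hhx : 0 < h₀ * x := mul_pos hh0 hx0
    have hl := hc.lower_point hH hc0 hc1 hR2 (a := x) (b := x + h₀ * x) (μ := x / (2 * K₀))
      hx.1 h2 le_rfl (by linarith) (by linarith) (by linarith)
      (by rw [hc_def]; linarith) (by positivity) (div_le_self hx0.le (by linarith)) fun z hz => by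
        rw [show K₀ * (x / (2 * K₀)) = x / 2 by field_simp]
        exact le_min (by linarith [hz.1]) (by linarith [hz.2])
    have e : x / (2 * K₀) / 4 - D * (x + h₀ * x - x) = x * (2 - δ) / (16 * K₀) := by
      rw [show D * (x + h₀ * x - x) = D * h₀ * x by ring, hDh]; ring
    rw [e, div_le_iff₀ (by positivity)] at hl
    left
    have h1 : x * 1 ≤ x * (2 - δ) := mul_le_mul_of_nonneg_left (by linarith) hx0.le
    calc base L x ≤ x := min_le_left _ _
      _ ≤ φ t x * (16 * K₀) := by linarith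
      _ ≤ φ t x * (16 * K₀ / δ) :=
          mul_le_mul_of_nonneg_left (le_div_self (by positivity) hδ0 (by linarith)) hp.le
      _ = _ := mul_comm _ _
  rcases le_or_gt x ((1 - δ) * L) with hδx | hδx
  · have hh3 : h₀ * L ≤ δ / 16 * L := mul_le_mul_of_nonneg_right hh2 hL0.le
    have hδL : δ * L ≤ 1 / 448 * L := mul_le_mul_of_nonneg_right hδ1 hL0.le
    have hδL0 : 0 < δ * L := mul_pos hδ0 hL0
    have hhL : 0 < h₀ * L := mul_pos hh0 hL0
    have hl := hc.lower_point hH hc0 hc1 hR2 (X := L / 2) (a := x) (b := x + h₀ * L)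
      (μ := δ * L / (2 * K₀)) (by linarith) le_rfl h2.le (by linarith) (by linarith) (by linarith)
      (by rw [hc_def]; linarith) (by positivity)
      ((div_le_self (by positivity) (by linarith)).trans (by linarith)) fun z hz => by
        rw [show K₀ * (δ * L / (2 * K₀)) = δ * L / 2 by field_simp]
        exact le_min (by linarith [hz.1]) (by linarith [hz.2])
    have e : δ * L / (2 * K₀) / 4 - D * (x + h₀ * L - x) = δ * L / (16 * K₀) := by
      rw [show D * (x + h₀ * L - x) = D * h₀ * L by ring, hDh]; ring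
    rw [e] at hl
    left
    calc base L x ≤ L := (min_le_left _ _).trans hx.2.le
      _ = 16 * K₀ / δ * (δ * L / (16 * K₀)) := by field_simp
      _ ≤ 16 * K₀ / δ * φ t x := mul_le_mul_of_nonneg_left hl hδK
  · right
    exact (min_le_right _ _).trans (hc.lower_end ⟨hδx, hx.2⟩ hx0)

end Vale.Agent.P264.Middle
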