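import Vale.Agent.P264.Defs
import Vale.Agent.P264.Calc.Slices
import Vale.Agent.P264.Middle.SliceInt

/-!
The scalar curvature of a flow, smooth up to `x = L` and away from `x = 0`, and its evolution.
-/

namespace Vale.Agent.P264.Middle

open Set Filter Topology MeasureTheory
open scoped ContDiff
open Calc (Smooth2)

/-- Time range of a flow. -/
def TI : Set ℝ := Icc 0 1

/-- Space range away from the fixed point. -/
def XJ (L : ℝ) : Set ℝ := Ioc 0 L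

variable {L : ℝ} {φ₀ : ℝ → ℝ} {φ : ℝ → ℝ → ℝ} {t x : ℝ}

theorem uniqueDiff_TI : UniqueDiffOn ℝ TI := uniqueDiffOn_Icc zero_lt_one

theorem uniqueDiff_XJ : UniqueDiffOn ℝ (XJ L) := uniqueDiffOn_Ioc 0 L

theorem XJ_mem_nhds (hx : x ∈ Ioo 0 L) : XJ L ∈ 𝓝 x :=
  mem_of_superset (isOpen_Ioo.mem_nhds hx) Ioo_subset_Ioc_self

theorem eqOn_interior {F G : ℝ → ℝ → ℝ} (hL : 0 < L) (hF : Smooth2 TI (XJ L) F)
    (hG : Smooth2 TI (XJ L) G) (h : ∀ t ∈ Ioo (0:ℝ) 1, ∀ x ∈ Ioo 0 L, F t x = G t x)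
    (ht : t ∈ TI) (hx : x ∈ XJ L) : F t x = G t x := by
  have e : EqOn (Function.uncurry F) (Function.uncurry G) (Ioo (0:ℝ) 1 ×ˢ Ioo 0 L) :=
    fun p hp => h p.1 hp.1 p.2 hp.2
  refine e.of_subset_closure hF.continuousOn hG.continuousOn
    (prod_mono Ioo_subset_Icc_self Ioo_subset_Ioc_self) ?_ (x := (t, x)) ⟨ht, hx⟩
  rw [closure_prod_eq, closure_Ioo zero_ne_one, closure_Ioo hL.ne]
  exact prod_mono subset_rfl Ioc_subset_Icc_self

theorem flow_smooth2 (h : IsFlow L 1 φ₀ φ) : Smooth2 TI (XJ L) φ :=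
  h.smooth.mono (prod_mono subset_rfl Ioc_subset_Icc_self)

/-- `x^7 φ`. -/
noncomputable def momP (φ : ℝ → ℝ → ℝ) (t x : ℝ) : ℝ := x ^ 7 * φ t x

/-- Scalar curvature, with one-sided derivatives at `L`. -/
noncomputable def curv (L : ℝ) (φ : ℝ → ℝ → ℝ) (t x : ℝ) : ℝ :=
  56 / x - Calc.pdX TI (XJ L) (Calc.pdX TI (XJ L) (momP φ)) t x / x ^ 7

/-- First space derivative of the curvature. -/
noncomputable def curv1 (L : ℝ) (φ : ℝ → ℝ → ℝ) : ℝ → ℝ → ℝ := Calc.pdX TI (XJ L) (curv L φ)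

/-- Second space derivative of the curvature. -/
noncomputable def curv2 (L : ℝ) (φ : ℝ → ℝ → ℝ) : ℝ → ℝ → ℝ := Calc.pdX TI (XJ L) (curv1 L φ)

/-- The flux `x^7 φ^2 S''`, equal to the time derivative of `x^7 φ`. -/
noncomputable def flux (L : ℝ) (φ : ℝ → ℝ → ℝ) (t x : ℝ) : ℝ :=
  x ^ 7 * φ t x ^ 2 * curv2 L φ t x

theorem smooth_xpow (n : ℕ) : Smooth2 TI (XJ L) fun _ z => z ^ n :=
  (contDiff_snd.pow n).contDiffOn

theorem smooth_momP (h : IsFlow L 1 φ₀ φ) : Smooth2 TI (XJ L) (momP φ) :=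
  (smooth_xpow 7).mul (flow_smooth2 h)

theorem smooth_curv (h : IsFlow L 1 φ₀ φ) : Smooth2 TI (XJ L) (curv L φ) := by
  have h2 := ((smooth_momP h).pdX uniqueDiff_TI uniqueDiff_XJ).pdX uniqueDiff_TI uniqueDiff_XJ
  have hx : ∀ p ∈ TI ×ˢ XJ L, (p.2 : ℝ) ≠ 0 := fun p hp => ne_of_gt hp.2.1
  exact (contDiffOn_const.div contDiff_snd.contDiffOn hx).sub
    (h2.div (contDiff_snd.pow 7).contDiffOn fun p hp => pow_ne_zero _ (hx p hp))

theorem smooth_curv2 (h : IsFlow L 1 φ₀ φ) : Smooth2 TI (XJ L) (curv2 L φ) :=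
  ((smooth_curv h).pdX uniqueDiff_TI uniqueDiff_XJ).pdX uniqueDiff_TI uniqueDiff_XJ

theorem smooth_flux (h : IsFlow L 1 φ₀ φ) : Smooth2 TI (XJ L) (flux L φ) :=
  ((smooth_xpow 7).mul ((flow_smooth2 h).pow 2)).mul (smooth_curv2 h)

theorem curv_eq_scal (h : IsFlow L 1 φ₀ φ) (ht : t ∈ TI) (hx : x ∈ Ioo 0 L) :
    curv L φ t x = scal (φ t) x := by
  rw [curv, scal, ← (smooth_momP h).deriv2_x uniqueDiff_TI uniqueDiff_XJ ht (XJ_mem_nhds hx)]
  rfl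

theorem pdT_flow (h : IsFlow L 1 φ₀ φ) (hL : 0 < L) (ht : t ∈ TI) (hx : x ∈ XJ L) :
    Calc.pdT TI (XJ L) φ t x = φ t x ^ 2 * curv2 L φ t x := by
  refine eqOn_interior (G := fun t x => φ t x ^ 2 * curv2 L φ t x) hL
    ((flow_smooth2 h).pdT uniqueDiff_TI uniqueDiff_XJ)
    (((flow_smooth2 h).pow 2).mul (smooth_curv2 h)) (fun r hr z hz => ?_) ht hx
  have hrI : r ∈ TI := Ioo_subset_Icc_self hr
  rw [← (flow_smooth2 h).deriv_t (Icc_mem_nhds hr.1 hr.2) (Ioo_subset_Ioc_self hz),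
    h.eqn r hr z hz]
  congr 1
  have e : deriv (scal (φ r)) =ᶠ[𝓝 z] deriv (curv L φ r) := by
    refine Filter.EventuallyEq.deriv ?_
    filter_upwards [isOpen_Ioo.mem_nhds hz] with w hw using (curv_eq_scal h hrI hw).symm
  rw [e.deriv_eq]
  exact (smooth_curv h).deriv2_x uniqueDiff_TI uniqueDiff_XJ hrI (XJ_mem_nhds hz)

theorem pdT_momP (h : IsFlow L 1 φ₀ φ) (hL : 0 < L) (ht : t ∈ TI) (hx : x ∈ XJ L) :
    Calc.pdT TI (XJ L) (momP φ) t x = flux L φ t x := by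
  have h2 : HasDerivWithinAt (fun r => momP φ r x)
      (x ^ 7 * (φ t x ^ 2 * curv2 L φ t x)) TI t := by
    rw [← pdT_flow h hL ht hx]
    exact ((flow_smooth2 h).hasDerivWithinAt_t ht hx).const_mul (x ^ 7)
  rw [← (smooth_momP h).derivWithin_t uniqueDiff_TI ht hx, h2.derivWithin (uniqueDiff_TI t ht),
    flux]
  ring

theorem closure_interior_TI_XJ (hL : 0 < L) (ht : t ∈ TI) (hx : x ∈ XJ L) :
    (t, x) ∈ closure (interior (TI ×ˢ XJ L)) := by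
  rw [interior_prod_eq, TI, XJ, interior_Icc, interior_Ioc, closure_prod_eq,
    closure_Ioo zero_ne_one, closure_Ioo hL.ne]
  exact ⟨ht, Ioc_subset_Icc_self hx⟩

theorem pdT_pdX_momP (h : IsFlow L 1 φ₀ φ) (hL : 0 < L) (ht : t ∈ TI) (hx : x ∈ XJ L) :
    Calc.pdT TI (XJ L) (Calc.pdX TI (XJ L) (momP φ)) t x
      = Calc.pdX TI (XJ L) (flux L φ) t x := by
  rw [(smooth_momP h).pdT_pdX uniqueDiff_TI uniqueDiff_XJ ht hx (closure_interior_TI_XJ hL ht hx),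
    ← ((smooth_momP h).pdT uniqueDiff_TI uniqueDiff_XJ).derivWithin_x uniqueDiff_XJ ht hx,
    ← (smooth_flux h).derivWithin_x uniqueDiff_XJ ht hx]
  exact derivWithin_congr (fun z hz => pdT_momP h hL ht hz) (pdT_momP h hL ht hx)

/-- The evolution of the curvature. -/
theorem pdT_curv (h : IsFlow L 1 φ₀ φ) (hL : 0 < L) (ht : t ∈ TI) (hx : x ∈ XJ L) :
    Calc.pdT TI (XJ L) (curv L φ) t x
      = -(Calc.pdX TI (XJ L) (Calc.pdX TI (XJ L) (flux L φ)) t x / x ^ 7) := by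
  have h1 := (smooth_momP h).pdX uniqueDiff_TI uniqueDiff_XJ
  have h2 := h1.pdX uniqueDiff_TI uniqueDiff_XJ
  have h3 := (smooth_flux h).pdX uniqueDiff_TI uniqueDiff_XJ
  have e : Calc.pdT TI (XJ L) (Calc.pdX TI (XJ L) (Calc.pdX TI (XJ L) (momP φ))) t x
      = Calc.pdX TI (XJ L) (Calc.pdX TI (XJ L) (flux L φ)) t x := by
    rw [h1.pdT_pdX uniqueDiff_TI uniqueDiff_XJ ht hx (closure_interior_TI_XJ hL ht hx),
      ← (h1.pdT uniqueDiff_TI uniqueDiff_XJ).derivWithin_x uniqueDiff_XJ ht hx,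
      ← h3.derivWithin_x uniqueDiff_XJ ht hx]
    exact derivWithin_congr (fun z hz => pdT_pdX_momP h hL ht hz) (pdT_pdX_momP h hL ht hx)
  rw [← (smooth_curv h).derivWithin_t uniqueDiff_TI ht hx, ← e]
  exact ((((h2.hasDerivWithinAt_t ht hx).div_const (x ^ 7)).const_sub (56 / x))).derivWithin
    (uniqueDiff_TI t ht)

theorem flux_right (h : IsFlow L 1 φ₀ φ) (hL : 0 < L) (ht : t ∈ TI) :
    flux L φ t L = 0 ∧ Calc.pdX TI (XJ L) (flux L φ) t L = 0 := by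
  have hLJ : L ∈ XJ L := ⟨hL, le_rfl⟩
  have h0 : φ t L = 0 := (h.profile t ht).right
  refine ⟨by simp [flux, h0], ?_⟩
  have hd := (((hasDerivWithinAt_id L (XJ L)).fun_pow 7).mul
      (((flow_smooth2 h).hasDerivWithinAt_x ht hLJ).fun_pow 2)).mul
    ((smooth_curv2 h).hasDerivWithinAt_x ht hLJ)
  have hd' : HasDerivWithinAt (flux L φ t) 0 (XJ L) L :=
    hd.congr_deriv (by simp [h0])
  rw [← (smooth_flux h).derivWithin_x uniqueDiff_XJ ht hLJ, hd'.derivWithin (uniqueDiff_XJ L hLJ)]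

/-- Weighted energy of the curvature. -/
noncomputable def energy (L : ℝ) (θ : ℝ → ℝ) (a b : ℝ) (φ : ℝ → ℝ → ℝ) (t : ℝ) : ℝ :=
  ∫ x in a..b, θ x ^ 8 * x ^ 7 * curv L φ t x ^ 2

theorem hasDerivAt_energy (h : IsFlow L 1 φ₀ φ) (hL : 0 < L) {θ : ℝ → ℝ} (hθ : ContDiff ℝ ∞ θ)
    {a b : ℝ} (ha : 0 < a) (hab : a ≤ b) (hb : b ≤ L) (ht : t ∈ Ioo (0:ℝ) 1) :
    HasDerivAt (energy L θ a b φ) (-2 * ∫ x in a..b, θ x ^ 8 * curv L φ t x *
      Calc.pdX TI (XJ L) (Calc.pdX TI (XJ L) (flux L φ)) t x) t := by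
  have hF : Smooth2 TI (XJ L) fun r z => θ z ^ 8 * z ^ 7 * curv L φ r z ^ 2 :=
    ((((hθ.comp contDiff_snd).pow 8).mul (contDiff_snd.pow 7)).contDiffOn).mul
      ((smooth_curv h).pow 2)
  have hsub : Icc a b ⊆ XJ L := fun z hz => ⟨ha.trans_le hz.1, hz.2.trans hb⟩
  refine (hasDerivAt_slice_integral hab hsub uniqueDiff_TI uniqueDiff_XJ hF
    (by rw [TI, interior_Icc]; exact ht)).congr_deriv ?_
  rw [← intervalIntegral.integral_const_mul]
  refine intervalIntegral.integral_congr fun z hz => ?_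
  rw [uIcc_of_le hab] at hz
  have hz' := hsub hz
  have htI : t ∈ TI := Ioo_subset_Icc_self ht
  have hd := ((((smooth_curv h).hasDerivWithinAt_t htI hz')).fun_pow 2).const_mul (θ z ^ 8 * z ^ 7)
  show Calc.pdT TI (XJ L) (fun r z => θ z ^ 8 * z ^ 7 * curv L φ r z ^ 2) t z = _
  rw [← hF.derivWithin_t uniqueDiff_TI htI hz', hd.derivWithin (uniqueDiff_TI t htI),
    pdT_curv h hL htI hz']
  have hz0 : z ≠ 0 := hz'.1.ne'
  field_simp
  ring

theorem continuousOn_energy (h : IsFlow L 1 φ₀ φ) {θ : ℝ → ℝ} (hθ : Continuous θ)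
    {a b : ℝ} (ha : 0 < a) (hab : a ≤ b) (hb : b ≤ L) :
    ContinuousOn (energy L θ a b φ) TI := by
  refine continuousOn_slice_integral (F := fun r z => θ z ^ 8 * z ^ 7 * curv L φ r z ^ 2)
    hab zero_le_one ?_
  have hc := (smooth_curv h).continuousOn.mono (prod_mono (subset_refl TI)
    fun z (hz : z ∈ Icc a b) => (⟨ha.trans_le hz.1, hz.2.trans hb⟩ : z ∈ XJ L))
  exact ((((hθ.comp continuous_snd).pow 8).mul (continuous_snd.pow 7)).continuousOn).mul (hc.pow 2)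

end Vale.Agent.P264.Middle
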