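import Vale.Agent.P264.Middle.Energy
import Vale.Agent.P264.Middle.Curv

/-!
Dyadic blocks of the Calabi energy stay bounded in the middle region.
-/

namespace Vale.Agent.P264.Middle

open Set Filter Topology MeasureTheory
open scoped ContDiff

/-- Distance to the ends, the size of a profile. -/
noncomputable def base (L x : ℝ) : ℝ := min x (L - x)

/-- Comparability of the profile with `base` on a set. -/
def Comparable (L M : ℝ) (φ : ℝ → ℝ → ℝ) (t : ℝ) (s : Set ℝ) : Prop :=
  ∀ x ∈ s, |φ t x| ≤ M * base L x ∧ base L x ≤ M * |φ t x|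

/-- Energy of a block. -/
noncomputable def blk (L : ℝ) (φ : ℝ → ℝ → ℝ) (t X : ℝ) : ℝ :=
  (∫ x in X..min (2 * X) L, x ^ 7 * curv L φ t x ^ 2) / X ^ 6

/-- Bump equal to one on `[1, 2]`, supported in `[1/2, 4]`. -/
noncomputable def bump (u : ℝ) : ℝ :=
  Real.smoothTransition (2 * u - 1) * Real.smoothTransition (2 - u / 2)

/-- Step from `0` at `u ≤ 1` to `1` at `u ≥ 2`. -/
noncomputable def step (u : ℝ) : ℝ := Real.smoothTransition (u - 1)

/-- A cutoff profile with derivatives bounded by `K` and constant beyond `4`. -/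
structure Shape (K : ℝ) (κ : ℝ → ℝ) : Prop where
  smooth : ContDiff ℝ ∞ κ
  mem : ∀ u, 0 ≤ κ u ∧ κ u ≤ 1
  d1 : ∀ u ∈ Icc (0:ℝ) 4, |deriv κ u| ≤ K
  d2 : ∀ u ∈ Icc (0:ℝ) 4, |deriv (deriv κ) u| ≤ K
  flat : ∀ u, 4 < u → deriv κ u = 0 ∧ deriv (deriv κ) u = 0

theorem smooth_bump : ContDiff ℝ ∞ bump := by
  unfold bump
  exact (Real.smoothTransition.contDiff.comp (by fun_prop)).mul
    (Real.smoothTransition.contDiff.comp (by fun_prop))

theorem smooth_step : ContDiff ℝ ∞ step := by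
  unfold step
  exact Real.smoothTransition.contDiff.comp (by fun_prop)

theorem flat_of_const {κ : ℝ → ℝ} {c a : ℝ} (h : ∀ u, a < u → κ u = c) {u : ℝ} (hu : a < u) :
    deriv κ u = 0 ∧ deriv (deriv κ) u = 0 := by
  have e : ∀ v, a < v → deriv κ v = 0 := fun v hv => by
    rw [Filter.EventuallyEq.deriv_eq (f := fun _ => c)
      (eventuallyEq_of_mem (Ioi_mem_nhds hv) fun w hw => h w hw), deriv_const]
  exact ⟨e u hu, by
    rw [Filter.EventuallyEq.deriv_eq (f := fun _ => (0:ℝ))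
      (eventuallyEq_of_mem (Ioi_mem_nhds hu) fun w hw => e w hw), deriv_const]⟩

theorem exists_shape_bound {κ : ℝ → ℝ} (hκ : ContDiff ℝ ∞ κ) (h01 : ∀ u, 0 ≤ κ u ∧ κ u ≤ 1)
    {c : ℝ} (hc : ∀ u, 4 < u → κ u = c) : ∃ K, ∀ K', K ≤ K' → Shape K' κ := by
  have h1 : ContDiff ℝ ∞ (deriv κ) := (contDiff_infty_iff_deriv.1 hκ).2
  have h2 : ContDiff ℝ ∞ (deriv (deriv κ)) := (contDiff_infty_iff_deriv.1 h1).2
  obtain ⟨K1, hK1⟩ := (isCompact_Icc (a := (0:ℝ)) (b := 4)).exists_bound_of_continuousOn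
    h1.continuous.continuousOn
  obtain ⟨K2, hK2⟩ := (isCompact_Icc (a := (0:ℝ)) (b := 4)).exists_bound_of_continuousOn
    h2.continuous.continuousOn
  exact ⟨max K1 K2, fun K' h => ⟨hκ, h01,
    fun u hu => (hK1 u hu).trans ((le_max_left _ _).trans h),
    fun u hu => (hK2 u hu).trans ((le_max_right _ _).trans h),
    fun u hu => flat_of_const hc hu⟩⟩

theorem exists_shape_const : ∃ K, 1 ≤ K ∧ Shape K bump ∧ Shape K step := by
  obtain ⟨K1, h1⟩ := exists_shape_bound smooth_bump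
    (fun u => ⟨mul_nonneg (Real.smoothTransition.nonneg _) (Real.smoothTransition.nonneg _),
      mul_le_one₀ (Real.smoothTransition.le_one _) (Real.smoothTransition.nonneg _)
        (Real.smoothTransition.le_one _)⟩) (c := 0)
    (fun u hu => by
      rw [bump, Real.smoothTransition.zero_of_nonpos (show 2 - u / 2 ≤ 0 by linarith), mul_zero])
  obtain ⟨K2, h2⟩ := exists_shape_bound smooth_step
    (fun u => ⟨Real.smoothTransition.nonneg _, Real.smoothTransition.le_one _⟩) (c := 1)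
    (fun u hu => by rw [step, Real.smoothTransition.one_of_one_le (by linarith)])
  exact ⟨max (max K1 K2) 1, le_max_right _ _, h1 _ ((le_max_left _ _).trans (le_max_left _ _)),
    h2 _ ((le_max_right _ _).trans (le_max_left _ _))⟩

/-- The size parameter of the static inequality. -/
noncomputable def sizeA (K M : ℝ) : ℝ := 8 * K * M

variable {L M K X : ℝ} {φ₀ : ℝ → ℝ} {φ : ℝ → ℝ → ℝ} {t : ℝ}

theorem base_nonneg {x : ℝ} (hx : 0 ≤ x) (hx' : x ≤ L) : 0 ≤ base L x := le_min hx (by linarith)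

theorem intervalIntegrable_curv (h : IsFlow L 1 φ₀ φ) (ht : t ∈ TI) {a b : ℝ} (ha : 0 < a)
    (hab : a ≤ b) (hb : b ≤ L) :
    IntervalIntegrable (fun x => x ^ 7 * curv L φ t x ^ 2) volume a b := by
  refine ContinuousOn.intervalIntegrable ?_
  rw [uIcc_of_le hab]
  exact ((continuous_pow 7).continuousOn).mul
    ((((smooth_curv h).slice_x ht).continuousOn.mono
      fun z hz => ⟨ha.trans_le hz.1, hz.2.trans hb⟩).pow 2)

theorem blk_nonneg_integral {a b : ℝ} (ha : 0 < a)
    (hab : a ≤ b) : 0 ≤ ∫ x in a..b, x ^ 7 * curv L φ t x ^ 2 :=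
  intervalIntegral.integral_nonneg hab fun x hx =>
    mul_nonneg (pow_nonneg (ha.le.trans hx.1) 7) (sq_nonneg _)

theorem energy_deriv_le (h : IsFlow L 1 φ₀ φ) (hX : 0 < X) (hX4 : 4 * X ≤ L / 2) (hK : 1 ≤ K)
    (hM : 1 ≤ M) {κ : ℝ → ℝ} (hκ : Shape K κ) {a b : ℝ} (ha : X / 2 ≤ a) (hab : a ≤ b)
    (hb : b ≤ L) (ha0 : κ (a / X) = 0) (hend : κ (b / X) = 0 ∨ b = L)
    (ht : t ∈ Ioo (0:ℝ) 1) (hcomp : Comparable L M φ t (Icc a b)) :
    deriv (energy L (fun x => κ (x / X)) a b φ) t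
      ≤ 2 * energyC (sizeA K M) / X ^ 2 * ∫ x in a..b, x ^ 7 * curv L φ t x ^ 2 := by
  have hL : 0 < L := by linarith
  have ha' : 0 < a := by linarith
  have hθ : ContDiff ℝ ∞ fun x => κ (x / X) := hκ.smooth.comp (by fun_prop)
  rw [(hasDerivAt_energy h hL hθ ha' hab hb ht).deriv]
  have htI : t ∈ TI := Ioo_subset_Icc_self ht
  have hsub : Icc a b ⊆ XJ L := fun z hz => ⟨ha'.trans_le hz.1, hz.2.trans hb⟩
  have hnhds : ∀ z ∈ Ioo a b, XJ L ∈ 𝓝 z := fun z hz =>
    XJ_mem_nhds ⟨ha'.trans hz.1, hz.2.trans_le hb⟩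
  have sl : ∀ {F : ℝ → ℝ → ℝ}, Calc.Smooth2 TI (XJ L) F → ContinuousOn (F t) (Icc a b) :=
    fun hF => (hF.slice_x htI).continuousOn.mono hsub
  have s1 := (smooth_curv h).pdX uniqueDiff_TI uniqueDiff_XJ
  have g1 := (smooth_flux h).pdX uniqueDiff_TI uniqueDiff_XJ
  have g2 := g1.pdX uniqueDiff_TI uniqueDiff_XJ
  have k1 : ContDiff ℝ ∞ (deriv κ) := (contDiff_infty_iff_deriv.1 hκ.smooth).2
  have k2 : Continuous (deriv (deriv κ)) := (contDiff_infty_iff_deriv.1 k1).2.continuous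
  have dθ : ∀ z : ℝ, HasDerivAt (fun x => κ (x / X)) (deriv κ (z / X) / X) z := fun z =>
    (((hκ.smooth.differentiable (by simp)) (z / X)).hasDerivAt.comp (h := fun x : ℝ => x / X) z
      ((hasDerivAt_id z).div_const X)).congr_deriv (by ring)
  have dθ₁ : ∀ z : ℝ, HasDerivAt (fun x => deriv κ (x / X) / X)
      (deriv (deriv κ) (z / X) / X ^ 2) z := fun z =>
    ((((k1.differentiable (by simp)) (z / X)).hasDerivAt.comp (h := fun x : ℝ => x / X) z
      ((hasDerivAt_id z).div_const X)).div_const X).congr_deriv (by ring)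
  have hA : 0 ≤ sizeA K M := by unfold sizeA; positivity
  have hKM : 1 ≤ K * M := one_le_mul_of_one_le_of_one_le hK hM
  have hw01 : ∀ x ∈ Icc a b, 0 ≤ (L - x) / L ∧ (L - x) / L ≤ 1 := fun x hx =>
    ⟨div_nonneg (by linarith [hx.2]) hL.le,
      (div_le_one hL).2 (by linarith [ha'.trans_le hx.1])⟩
  have small : ∀ x ∈ Icc a b, x / X ≤ 4 →
      |φ t x| ≤ 4 * M * X ∧ (1:ℝ) / 2 ≤ (L - x) / L ∧ x / X ∈ Icc (0:ℝ) 4 := by
    intro x hx hu
    have hxX : x ≤ 4 * X := by rwa [div_le_iff₀ hX] at hu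
    refine ⟨(hcomp x hx).1.trans ?_, ?_, ⟨div_nonneg (ha'.le.trans hx.1) hX.le, hu⟩⟩
    · calc M * base L x ≤ M * (4 * X) :=
            mul_le_mul_of_nonneg_left ((min_le_left _ _).trans hxX) (by linarith)
        _ = 4 * M * X := by ring
    · rw [le_div_iff₀ hL]; linarith
  have main := block_energy (A := sizeA K M) (X := X) (a := a) (b := b) hA hX ha hab
    (θ := fun x => κ (x / X)) (θ₁ := fun x => deriv κ (x / X) / X)
    (θ₂ := fun x => deriv (deriv κ) (x / X) / X ^ 2) (p := φ t) (S := curv L φ t)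
    (S₁ := curv1 L φ t) (S₂ := curv2 L φ t) (G := flux L φ t)
    (G₁ := Calc.pdX TI (XJ L) (flux L φ) t)
    (G₂ := Calc.pdX TI (XJ L) (Calc.pdX TI (XJ L) (flux L φ)) t)
    (w := fun x => (L - x) / L) (w₁ := fun _ => -1 / L)
    hθ.continuous.continuousOn
    ((k1.continuous.comp (continuous_id.div_const X)).div_const X).continuousOn
    ((k2.comp (continuous_id.div_const X)).div_const _).continuousOn
    (sl (flow_smooth2 h)) (sl (smooth_curv h)) (sl s1) (sl (smooth_curv2 h)) (sl g1) (sl g2)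
    ((continuous_const.sub continuous_id).div_const L).continuousOn continuousOn_const
    (fun z _ => dθ z) (fun z _ => dθ₁ z)
    (fun z hz => (smooth_curv h).hasDerivAt_x htI (hnhds z hz))
    (fun z hz => s1.hasDerivAt_x htI (hnhds z hz))
    (fun z hz => (smooth_flux h).hasDerivAt_x htI (hnhds z hz))
    (fun z hz => g1.hasDerivAt_x htI (hnhds z hz))
    (fun z _ => ((hasDerivAt_id z).const_sub L).div_const L)
    (fun z _ => rfl) ha0 ?_ (fun z _ => hκ.mem _) hw01 ?_ ?_ ?_ ?_ ?_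
  · have e : ∀ x, κ (x / X) ^ 8 * curv L φ t x
        * Calc.pdX TI (XJ L) (Calc.pdX TI (XJ L) (flux L φ)) t x
        = (fun x => κ (x / X)) x ^ 8 * curv L φ t x
          * Calc.pdX TI (XJ L) (Calc.pdX TI (XJ L) (flux L φ)) t x := fun _ => rfl
    calc -2 * _ = 2 * -(∫ x in a..b, κ (x / X) ^ 8 * curv L φ t x
            * Calc.pdX TI (XJ L) (Calc.pdX TI (XJ L) (flux L φ)) t x) := by ring
      _ ≤ 2 * (energyC (sizeA K M) / X ^ 2 * ∫ x in a..b, x ^ 7 * curv L φ t x ^ 2) :=
          mul_le_mul_of_nonneg_left main two_pos.le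
      _ = _ := by ring
  · rcases hend with h0 | h0
    · exact Or.inl h0
    · subst h0
      exact Or.inr ⟨(flux_right h hL htI).1, (flux_right h hL htI).2, by simp⟩
  · intro x _
    rw [abs_div, abs_neg, abs_one, abs_of_pos hL]
    exact div_le_div₀ hA (by unfold sizeA; linarith) hX (by linarith)
  · intro x hx
    rw [abs_div, abs_of_pos hX]
    refine div_le_div_of_nonneg_right ?_ hX.le
    rcases le_or_gt (x / X) 4 with hu | hu
    · exact (hκ.d1 _ (small x hx hu).2.2).trans (by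
        rw [sizeA]; linarith [mul_le_mul_of_nonneg_left hM (show (0:ℝ) ≤ K by linarith)])
    · rw [(hκ.flat _ hu).1, abs_zero]; exact hA
  · intro x hx
    rcases le_or_gt (x / X) 4 with hu | hu
    · obtain ⟨h1, -, h3⟩ := small x hx hu
      calc |φ t x| * |deriv (deriv κ) (x / X) / X ^ 2| ≤ 4 * M * X * (K / X ^ 2) := by
            refine mul_le_mul h1 ?_ (abs_nonneg _) (by positivity)
            rw [abs_div, abs_of_pos (by positivity : (0:ℝ) < X ^ 2)]
            exact div_le_div_of_nonneg_right (hκ.d2 _ h3) (by positivity)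
        _ = 4 * M * K / X := by field_simp
        _ ≤ sizeA K M / X := by
            refine div_le_div_of_nonneg_right ?_ hX.le
            rw [sizeA]; linarith
    · rw [(hκ.flat _ hu).2, zero_div, abs_zero, mul_zero]; positivity
  · intro x hx
    rcases le_or_gt (x / X) 4 with hu | hu
    · obtain ⟨h1, h2, h3⟩ := small x hx hu
      calc |φ t x| * |deriv κ (x / X) / X| ≤ 4 * M * X * (K / X) := by
            refine mul_le_mul h1 ?_ (abs_nonneg _) (by positivity)
            rw [abs_div, abs_of_pos hX]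
            exact div_le_div_of_nonneg_right (hκ.d1 _ h3) hX.le
        _ = sizeA K M * (1 / 2) := by rw [sizeA]; field_simp; ring
        _ ≤ sizeA K M * ((L - x) / L) := mul_le_mul_of_nonneg_left h2 hA
    · rw [(hκ.flat _ hu).1, zero_div, abs_zero, mul_zero]
      exact mul_nonneg hA (hw01 x hx).1
  · intro x hx
    obtain ⟨w0, w1⟩ := hw01 x hx
    have hb' := (hcomp x hx).2
    rw [le_div_iff₀ hX]
    have hk : ((L - x) / L) ^ 2 * X ≤ 2 * base L x := by
      rw [base, mul_min_of_nonneg _ _ two_pos.le]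
      refine le_min ?_ ?_
      · calc ((L - x) / L) ^ 2 * X ≤ 1 * X :=
              mul_le_mul_of_nonneg_right (pow_le_one₀ w0 w1) hX.le
          _ ≤ 2 * x := by linarith [ha.trans hx.1]
      · calc ((L - x) / L) ^ 2 * X ≤ (L - x) / L * L := by
              refine mul_le_mul (pow_le_of_le_one w0 w1 two_ne_zero) (by linarith) hX.le w0
          _ = L - x := div_mul_cancel₀ _ hL.ne'
          _ ≤ 2 * (L - x) := by linarith [hx.2]
    refine hk.trans ?_
    calc 2 * base L x ≤ 2 * (M * |φ t x|) := by linarith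
      _ ≤ sizeA K M * |φ t x| := by
          rw [sizeA, ← mul_assoc]
          have := mul_le_mul_of_nonneg_right hK (show (0:ℝ) ≤ M by linarith)
          exact mul_le_mul_of_nonneg_right (by linarith) (abs_nonneg _)

end Vale.Agent.P264.Middle
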