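import Vale.Agent.P264.Middle.Sup
import Vale.Agent.P264.Middle.Bounds
import Vale.Agent.P264.Ref.Main
import Vale.Agent.P264.Assembly.Rescale

/-!
The middle target: physical variables, entry data from the inner estimates and the initial datum.
-/

namespace Vale.Agent.P264.Middle

open Set Filter Topology MeasureTheory
open scoped ContDiff

variable {σ : Shrinker} {L R : ℝ} {φ₀ : ℝ → ℝ} {φ : ℝ → ℝ → ℝ}

theorem exists_s {r t₁ : ℝ} {s₁ : ℝ} (hr : r ∈ Icc 0 t₁) (ht₁ : t₁ = tof s₁) :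
    ∃ s ∈ Icc 0 s₁, tof s = r := by
  have hr1 : r < 1 := hr.2.trans_lt (ht₁ ▸ Assembly.tof_lt_one s₁)
  refine ⟨-Real.log (1 - r), ⟨?_, ?_⟩, ?_⟩
  · linarith [Real.log_nonpos (by linarith : (0:ℝ) ≤ 1 - r) (by linarith [hr.1])]
  · have h2 : Real.exp (-s₁) ≤ 1 - r := by
      have := hr.2
      rw [ht₁, tof] at this
      linarith
    linarith [Real.log_le_log (Real.exp_pos _) h2, Real.log_exp (-s₁)]
  · rw [tof, neg_neg, Real.exp_log (by linarith), sub_sub_cancel]

/-- The entry data in rescaled variables: an `s`-slice close to the shrinker on `(0, 8 R)`. -/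
structure Near (σ : Shrinker) (R : ℝ) (φ : ℝ → ℝ → ℝ) (s : ℝ) : Prop where
  cap : ∀ y ∈ Ioo 0 (8 * R), |rprof φ s y - y * σ.q y| ≤ y * σ.q y / 1000
  slope : ∀ y ∈ Ioo 0 (8 * R), |deriv (rprof φ s) y - deriv (fun z => z * σ.q z) y| ≤ 1
  curv : ∀ y ∈ Ioo 0 (8 * R), |scal (rprof φ s) y - σ.S y| ≤ 1 / y

/-- A curvature bound `c / x` bounds a block. -/
theorem blk_le_of_curv (h : IsFlow L 1 φ₀ φ) {t Y c : ℝ} (ht : t ∈ TI) (hY : 0 < Y) (hYL : Y ≤ L)
    (hc : ∀ x ∈ Ioo Y (min (2 * Y) L), |curv L φ t x| ≤ c / x) : blk L φ t Y ≤ 32 * c ^ 2 := by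
  set m := min (2 * Y) L
  have hm : Y ≤ m := le_min (by linarith) hYL
  rw [blk, div_le_iff₀ (by positivity)]
  calc ∫ x in Y..m, x ^ 7 * curv L φ t x ^ 2 ≤ ∫ _x in Y..m, (2 * Y) ^ 5 * c ^ 2 := by
        refine intervalIntegral.integral_mono_on_of_le_Ioo hm
          (intervalIntegrable_curv h ht hY hm (min_le_right _ _)) intervalIntegrable_const
          fun x hx => ?_
        have hx0 : 0 < x := hY.trans hx.1
        calc x ^ 7 * curv L φ t x ^ 2 ≤ x ^ 7 * (c / x) ^ 2 := by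
              rw [← sq_abs (curv L φ t x)]
              exact mul_le_mul_of_nonneg_left (pow_le_pow_left₀ (abs_nonneg _) (hc x hx) 2)
                (pow_nonneg hx0.le 7)
          _ = x ^ 5 * c ^ 2 := by field_simp
          _ ≤ _ := mul_le_mul_of_nonneg_right
              (pow_le_pow_left₀ hx0.le (hx.2.le.trans (min_le_left _ _)) 5) (sq_nonneg c)
    _ = (m - Y) * ((2 * Y) ^ 5 * c ^ 2) := by rw [intervalIntegral.integral_const, smul_eq_mul]
    _ ≤ Y * ((2 * Y) ^ 5 * c ^ 2) :=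
        mul_le_mul_of_nonneg_right (by linarith [min_le_left (2 * Y) L]) (by positivity)
    _ = _ := by ring

/-- Entry data in physical variables. -/
theorem near_phys {Cs Q m : ℝ} (h : IsFlow L 1 φ₀ φ) (hs : ∀ y, 0 ≤ y → y * |σ.S y| ≤ Cs)
    (hQ : ∀ y, 0 < y → σ.q y ≤ Q) (hm : 0 < m) (hmq : ∀ y, 0 ≤ y → m ≤ σ.q y)
    (hL : 32 * R ≤ L) (hR : 0 < R) {s : ℝ} (hs0 : 0 ≤ s) (hn : Near σ R φ s) :
    ∀ x, 0 < x → x < 8 * (R * Real.sqrt (1 - tof s)) →
      |curv L φ (tof s) x| ≤ (Cs + 1) / x ∧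
      (∀ K, 2 * Q ≤ K → 2 / m ≤ K →
        |φ (tof s) x| ≤ K * base L x ∧ base L x ≤ K * |φ (tof s) x|) := by
  intro x hx0 hx8
  set k := Real.exp (s / 2)
  have hk : 0 < k := Real.exp_pos _
  rw [Assembly.sqrt_one_sub_tof] at hx8
  have hk1 : k * Real.exp (-s / 2) = 1 := Assembly.exp_half_mul s
  have hy : k * x ∈ Ioo 0 (8 * R) := by
    refine ⟨mul_pos hk hx0, ?_⟩
    calc k * x < k * (8 * (R * Real.exp (-s / 2))) := mul_lt_mul_of_pos_left hx8 hk
      _ = 8 * R * (k * Real.exp (-s / 2)) := by ring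
      _ = 8 * R := by rw [hk1, mul_one]
  have hexp : Real.exp (-s / 2) ≤ 1 := Real.exp_le_one_iff.2 (by linarith)
  have hxR : x < 8 * R := hx8.trans_le (by linarith [mul_le_mul_of_nonneg_left hexp hR.le])
  have hxL : x ∈ Ioo 0 L := ⟨hx0, by linarith⟩
  have htI : tof s ∈ TI := Assembly.tof_mem_Icc hs0
  constructor
  · rw [curv_eq_scal h htI hxL]
    have e : rprof φ s = fun z => k * φ (tof s) (z / k) := funext fun z => by
      have : Real.exp (-s / 2) * z = z / k := by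
        rw [neg_div, Real.exp_neg, inv_mul_eq_div]
      rw [rprof, this]
    have hsc := hn.curv _ hy
    rw [e, Ref.scal_scale _ hk.ne', mul_div_cancel_left₀ _ hk.ne'] at hsc
    have hS := hs _ hy.1.le
    rw [le_div_iff₀ hy.1] at hsc
    rw [le_div_iff₀ hx0]
    have : |scal (φ (tof s)) x| * x = |scal (φ (tof s)) x / k| * (k * x) := by
      rw [abs_div, abs_of_pos hk]; field_simp
    rw [this]
    have tri := abs_sub_le (scal (φ (tof s)) x / k) (σ.S (k * x)) 0
    simp only [sub_zero] at tri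
    linarith [mul_le_mul_of_nonneg_right tri hy.1.le]
  · intro K hK1 hK2
    have hcap := hn.cap _ hy
    rw [Assembly.rprof_apply] at hcap
    have hq1 := hQ _ hy.1
    have hq2 := hmq _ hy.1.le
    have hp : 0 < φ (tof s) x := (h.profile _ htI).pos x hxL
    have hb : base L x = x := min_eq_left (by linarith)
    rw [abs_of_pos hp, hb]
    rw [abs_le] at hcap
    have hF : k * x * σ.q (k * x) = k * (x * σ.q (k * x)) := mul_assoc _ _ _
    have u1 : φ (tof s) x ≤ 2 * (x * σ.q (k * x)) := by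
      refine le_of_mul_le_mul_left ?_ hk
      linarith [mul_pos hk (mul_pos hx0 (hm.trans_le hq2))]
    have u2 : x * σ.q (k * x) ≤ 2 * φ (tof s) x := by
      refine le_of_mul_le_mul_left ?_ hk
      linarith [mul_pos hk (mul_pos hx0 (hm.trans_le hq2))]
    constructor
    · calc φ (tof s) x ≤ 2 * (x * σ.q (k * x)) := u1
        _ ≤ 2 * (x * Q) := by gcongr
        _ = 2 * Q * x := by ring
        _ ≤ K * x := mul_le_mul_of_nonneg_right hK1 hx0.le
    · calc x = 1 / m * (x * m) := by field_simp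
        _ ≤ 1 / m * (2 * φ (tof s) x) := mul_le_mul_of_nonneg_left
            ((mul_le_mul_of_nonneg_left hq2 hx0.le).trans u2) (by positivity)
        _ = 2 / m * φ (tof s) x := by ring
        _ ≤ K * φ (tof s) x := mul_le_mul_of_nonneg_right hK2 hp.le

/-- The middle module. -/
theorem middle : MiddleTarget := by
  intro hsup σ M₀
  obtain ⟨Cs, hCs0, hCs⟩ := Ref.S_bound σ
  obtain ⟨Q, hQ1, hQ⟩ := Ref.q_bounds σ
  obtain ⟨m, hm, hmq⟩ := Ref.q_lower σ
  obtain ⟨Lr, Cr, hLr, hCr, href⟩ := Ref.ref_facts σ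
  obtain ⟨W, hW, hblock⟩ := block_bound
  set c := Cs + 1 + Cr with hc_def
  set K₀ := 2 * Q + 2 / m + Cr with hK0_def
  have hm2 : 0 ≤ 2 / m := by positivity
  have hK0 : 1 ≤ K₀ := by linarith
  obtain ⟨K, R₂, hK, hR₂, hprof⟩ := profile_bound (W * (32 * c ^ 2)) K₀
    (mul_nonneg (by linarith) (by positivity)) hK0
  set M := max M₀ (K * Cr + 2 * Q + 2) with hM_def
  have hKCr : K ≤ K * Cr := le_mul_of_one_le_right (by linarith) hCr
  have hM1 : K * Cr + 2 * Q + 2 ≤ M := le_max_right _ _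
  refine ⟨M, le_max_left _ _, by linarith, ?_⟩
  have hM' : 1 ≤ 2 * M * Cr := one_le_mul_of_one_le_of_one_le (by linarith) hCr
  obtain ⟨R₁, hR₁, hblock⟩ := hblock (2 * M * Cr) hM'
  obtain ⟨Rs, hRs, hsup⟩ := hsup σ (2 * M)
  refine ⟨max (max R₁ R₂) Rs, lt_of_lt_of_le hRs (le_max_right _ _), fun R hR => ?_⟩
  have hR1 : R₁ ≤ R := le_trans ((le_max_left _ _).trans (le_max_left _ _)) hR
  have hR2 : R₂ ≤ R := le_trans ((le_max_right _ _).trans (le_max_left _ _)) hR
  have hR0 : 0 < R := hR₁.trans_le hR1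
  obtain ⟨ηs, Ci, Ls, hηs, hCi, hsup⟩ := hsup R ((le_max_right _ _).trans hR)
  refine ⟨min ηs (1 / (Ci ^ 2 * (8 * R))), max (max Ls Lr) (32 * R), lt_min hηs (by positivity),
    lt_of_lt_of_le (by positivity) (le_max_right _ _),
    fun L hL φ₀ φ w hflow hrel hinit s₁ hs₁ hboot y hy => ?_⟩
  have hLs : Ls ≤ L := le_trans ((le_max_left _ _).trans (le_max_left _ _)) hL
  have hLr' : Lr ≤ L := le_trans ((le_max_right _ _).trans (le_max_left _ _)) hL
  have hL32 : 32 * R ≤ L := (le_max_right _ _).trans hL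
  have hL0 : 0 < L := by linarith
  obtain ⟨-, href⟩ := href L hLr'
  -- the slices are near the shrinker inside
  have hnear : ∀ s ∈ Icc 0 s₁, Near σ R φ s := by
    intro s hs
    have hb := hboot s hs
    have hb' : Boot σ L R ηs (2 * M) φ w s :=
      ⟨hb.small.trans (min_le_left _ _), hb.lower, hb.upper, hb.slope, hb.cap⟩
    have hi := hsup L hLs φ₀ φ w hflow hrel s hs.1 hb'
    set e := Real.sqrt (normN L w s + normE R w s)
    have he : ∀ y ∈ Ioo 0 (8 * R), Ci * e * Real.sqrt y ≤ 1 := by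
      intro y hy
      have h1 : e ≤ Real.sqrt (1 / (Ci ^ 2 * (8 * R))) :=
        Real.sqrt_le_sqrt (hb.small.trans (min_le_right _ _))
      calc Ci * e * Real.sqrt y
          ≤ Ci * Real.sqrt (1 / (Ci ^ 2 * (8 * R))) * Real.sqrt (8 * R) := by
            refine mul_le_mul (mul_le_mul_of_nonneg_left h1 hCi.le) (Real.sqrt_le_sqrt hy.2.le)
              (Real.sqrt_nonneg _) (by positivity)
        _ = 1 := by
            rw [Real.sqrt_div' _ (by positivity), Real.sqrt_mul (sq_nonneg Ci),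
              Real.sqrt_sq hCi.le, Real.sqrt_one]
            have : Real.sqrt (8 * R) ≠ 0 := (Real.sqrt_pos.2 (by linarith)).ne'
            field_simp
    refine ⟨hb.cap, fun y hy => ((hi y hy).2.1).trans (he y hy),
      fun y hy => ((hi y hy).2.2).trans ?_⟩
    rw [div_le_div_iff₀ (Real.sqrt_pos.2 hy.1) hy.1, one_mul]
    calc Ci * e * y = Ci * e * Real.sqrt y * Real.sqrt y := by
          rw [mul_assoc _ (Real.sqrt y), Real.mul_self_sqrt hy.1.le]
      _ ≤ 1 * Real.sqrt y := mul_le_mul_of_nonneg_right (he y hy) (Real.sqrt_nonneg _)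
      _ = _ := one_mul _
  set t₁ := tof s₁ with ht₁_def
  have ht1 : t₁ < 1 := Assembly.tof_lt_one s₁
  have ht0 : 0 ≤ t₁ := Assembly.tof_nonneg hs₁
  have mem : ∀ r ∈ Icc 0 t₁, r ∈ TI := fun r hr => ⟨hr.1, hr.2.trans ht1.le⟩
  have hphys : ∀ r ∈ Icc 0 t₁, ∀ x, 0 < x → x < 8 * (R * Real.sqrt (1 - r)) →
      |curv L φ r x| ≤ c / x ∧ |φ r x| ≤ K₀ * base L x ∧ base L x ≤ K₀ * |φ r x| := by
    intro r hr x hx0 hx8
    obtain ⟨s, hs, rfl⟩ := exists_s hr ht₁_def
    obtain ⟨h1, h2⟩ := near_phys hflow (fun y hy => (hCs y hy).2) (fun y hy => (hQ y hy).1) hm hmq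
      hL32 hR0 hs.1 (hnear s hs) x hx0 hx8
    exact ⟨h1.trans (div_le_div_of_nonneg_right (by linarith) hx0.le),
      h2 K₀ (by linarith) (by linarith)⟩
  -- comparability from the bootstrap
  have hcomp : ∀ r ∈ Icc 0 t₁,
      Comparable L (2 * M * Cr) φ r (Icc (R * Real.sqrt (1 - r) / 16) L) := by
    intro r hr x hx
    have hlo : 0 < R * Real.sqrt (1 - r) := mul_pos hR0 (Real.sqrt_pos.2 (by linarith [hr.2]))
    rcases hx.2.lt_or_eq with hlt | rfl
    · obtain ⟨s, hs, rfl⟩ := exists_s hr ht₁_def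
      have hxI : x ∈ Ioo 0 L := ⟨lt_of_lt_of_le (by linarith) hx.1, hlt⟩
      have l1 := (hboot s hs).lower _ (Assembly.y_mem_Ioo (s := s) hxI)
      have l2 := (hboot s hs).upper _ (Assembly.y_mem_Ioo (s := s) hxI)
      rw [Assembly.rprof_apply, Assembly.rprof_apply, mul_left_comm] at l1 l2
      have a1 := le_of_mul_le_mul_left l1 (Real.exp_pos _)
      have a2 := le_of_mul_le_mul_left l2 (Real.exp_pos _)
      obtain ⟨-, -, -, b1, b2⟩ := (href _ ⟨hr.1, hr.2.trans_lt ht1⟩).2 x hxI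
      rw [abs_of_pos ((hflow.profile _ (mem _ hr)).pos x hxI)]
      constructor
      · calc φ (tof s) x ≤ 2 * M * phiRef σ L (tof s) x := a2
          _ ≤ 2 * M * (Cr * base L x) := by gcongr
          _ = _ := by ring
      · calc base L x ≤ Cr * phiRef σ L (tof s) x := b1
          _ ≤ Cr * (2 * M * φ (tof s) x) := by gcongr
          _ = _ := by ring
    · have h0 := (hflow.profile r (mem r hr)).right
      simp [h0, base, hL0.le]
  -- blocks
  have hblk0 : ∀ Y ∈ Icc (R / 16) L, blk L φ 0 Y ≤ 32 * c ^ 2 := by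
    intro Y hY
    refine blk_le_of_curv hflow ⟨le_rfl, zero_le_one⟩ (by linarith [hY.1]) hY.2 fun x hx => ?_
    have hx0 : 0 < x := by linarith [hY.1, hx.1]
    rcases lt_or_ge x (8 * R) with h8 | h8
    · exact (hphys 0 ⟨le_rfl, ht0⟩ x hx0 (by simpa using h8)).1
    · have hxI : x ∈ Ioo 0 L := ⟨hx0, hx.2.trans_le (min_le_right _ _)⟩
      have e : φ 0 =ᶠ[𝓝 x] phiRef σ L 0 := by
        filter_upwards [Ioo_mem_nhds (show R < x by linarith) hxI.2] with z hz
        rw [hflow.initial z ⟨by linarith [hz.1], hz.2.le⟩, hinit z ⟨hz.1.le, hz.2.le⟩]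
      rw [curv_eq_scal hflow ⟨le_rfl, zero_le_one⟩ hxI, Ref.scal_congr e,
        show scal (phiRef σ L 0) x = refS σ L 0 x - fRef σ L 0 x by rw [fRef]; ring]
      obtain ⟨-, f1, -⟩ := (href 0 ⟨le_rfl, zero_lt_one⟩).2 x hxI
      have s1 : |refS σ L 0 x| ≤ Cs / x := by
        rw [refS, sub_zero, Real.sqrt_one, div_one, div_one, abs_mul, le_div_iff₀ hx0, mul_assoc]
        refine (mul_le_of_le_one_left (mul_nonneg (abs_nonneg _) hx0.le) ?_).trans
          (by rw [mul_comm]; exact (hCs x hx0.le).2)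
        rw [chiL, abs_of_nonneg (Real.smoothTransition.nonneg _)]
        exact Real.smoothTransition.le_one _
      have : Cr / L ≤ Cr / x := div_le_div_of_nonneg_left (by linarith) hx0 hxI.2.le
      refine (abs_sub _ _).trans ((add_le_add s1 (f1.trans this)).trans ?_)
      rw [← add_div]
      exact div_le_div_of_nonneg_right (by linarith) hx0.le
  have hent : ∀ r ∈ Icc 0 t₁, ∀ Y ∈ Icc (R * Real.sqrt (1 - r) / 16) (R * Real.sqrt (1 - r)),
      blk L φ r Y ≤ 32 * c ^ 2 := by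
    intro r hr Y hY
    have hlo : 0 < R * Real.sqrt (1 - r) := mul_pos hR0 (Real.sqrt_pos.2 (by linarith [hr.2]))
    have hloR : R * Real.sqrt (1 - r) ≤ R :=
      mul_le_of_le_one_right hR0.le (Real.sqrt_le_one.2 (by linarith [hr.1]))
    refine blk_le_of_curv hflow (mem r hr) (lt_of_lt_of_le (by linarith) hY.1)
      (by linarith [hY.2]) fun x hx => (hphys r hr x ?_ ?_).1
    · linarith [hY.1, hx.1]
    · linarith [hY.2, hx.2, min_le_left (2 * Y) L]
  have hblk := hblock R hR1 L (by linarith) φ₀ φ hflow t₁ ht0 ht1 _ hcomp hblk0 hent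
  have hctrl : Ctrl L R t₁ (W * (32 * c ^ 2)) K₀ φ₀ φ := by
    refine ⟨hflow, hR0, by linarith, ht0, ht1, hK0, mul_nonneg (by linarith) (by positivity), hblk,
      fun x hx => ?_, fun r hr x hx => ?_⟩
    · rcases hx.2.lt_or_eq with hlt | rfl
      · have hxI : x ∈ Ioo 0 L := ⟨by linarith [hx.1], hlt⟩
        obtain ⟨-, -, -, b1, b2⟩ := (href 0 ⟨le_rfl, zero_lt_one⟩).2 x hxI
        have e : φ 0 x = phiRef σ L 0 x := by
          rw [hflow.initial x ⟨hxI.1.le, hxI.2.le⟩, hinit x hx]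
        have hp := (hflow.profile 0 ⟨le_rfl, zero_le_one⟩).pos x hxI
        rw [abs_of_pos hp, e]
        rw [e] at hp
        constructor
        · exact b2.trans (mul_le_mul_of_nonneg_right (by linarith)
            (base_nonneg hxI.1.le hxI.2.le))
        · exact b1.trans (mul_le_mul_of_nonneg_right (by linarith) hp.le)
      · have h0 := (hflow.profile 0 ⟨le_rfl, zero_le_one⟩).right
        simp [h0, base, hL0.le]
    · have hlo : 0 < R * Real.sqrt (1 - r) := mul_pos hR0 (Real.sqrt_pos.2 (by linarith [hr.2]))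
      exact (hphys r hr x (hlo.trans_le hx.1) (by linarith [hx.2])).2
  -- conclusion
  rcases lt_or_ge y (8 * R) with h8 | h8
  · have hy' : y ∈ Ioo 0 (8 * R) := ⟨hy.1, h8⟩
    have hYs := Assembly.le_Ys hL0.le hs₁
    have hn := hnear s₁ ⟨hs₁, le_rfl⟩
    have e : rprof (phiRef σ L) s₁ y = y * σ.q y :=
      Assembly.rprof_ref (by linarith)
    have hq := σ.q_pos y hy.1.le
    have hF : 0 < y * σ.q y := mul_pos hy.1 hq
    have hc' := abs_le.1 (hn.cap y hy')
    have hM2 : (2:ℝ) ≤ M := by linarith [mul_nonneg (by linarith : (0:ℝ) ≤ K) (by linarith : (0:ℝ) ≤ Cr)]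
    rw [e]
    refine ⟨?_, ?_, ?_⟩
    · linarith [mul_le_mul_of_nonneg_right hM2 (show 0 ≤ rprof φ s₁ y by linarith)]
    · linarith [mul_le_mul_of_nonneg_right hM2 hF.le]
    · have hd : HasDerivAt (fun z => z * σ.q z) (1 * σ.q y + y * deriv σ.q y) y :=
        (hasDerivAt_id' y).fun_mul (Ref.hasDerivAt_q σ hy.1)
      have h1 := hn.slope y hy'
      rw [hd.deriv, one_mul] at h1
      obtain ⟨q1, q2, -⟩ := hQ y hy.1
      rw [abs_le] at h1 q2 ⊢
      constructor <;> linarith [mul_nonneg (by linarith : (0:ℝ) ≤ K) (by linarith : (0:ℝ) ≤ Cr)]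
  · set x := Real.exp (-s₁ / 2) * y with hx_def
    have hxI : x ∈ Ioo 0 L := Assembly.x_mem_Ioo hy
    have hxlo : R * Real.sqrt (1 - t₁) ≤ x := by
      rw [ht₁_def, Assembly.sqrt_one_sub_tof, mul_comm]
      exact mul_le_mul_of_nonneg_left (by linarith) (Real.exp_pos _).le
    obtain ⟨p1, p2, p3⟩ := hprof R hR2 L t₁ φ₀ φ hctrl x ⟨hxlo, hxI.2⟩
    obtain ⟨-, -, -, b1, b2⟩ := (href t₁ ⟨ht0, ht1⟩).2 x hxI
    have hp := (hflow.profile t₁ ⟨ht0, ht1.le⟩).pos x hxI
    have hk := Real.exp_pos (s₁ / 2)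
    have hKM : K * Cr ≤ M := by linarith
    refine ⟨?_, ?_, ?_⟩
    · show Real.exp (s₁ / 2) * phiRef σ L t₁ x ≤ M * (Real.exp (s₁ / 2) * φ t₁ x)
      rw [mul_left_comm M]
      refine mul_le_mul_of_nonneg_left ?_ hk.le
      calc phiRef σ L t₁ x ≤ Cr * (K * φ t₁ x) := b2.trans (by gcongr)
        _ = K * Cr * φ t₁ x := by ring
        _ ≤ M * φ t₁ x := mul_le_mul_of_nonneg_right hKM hp.le
    · show Real.exp (s₁ / 2) * φ t₁ x ≤ M * (Real.exp (s₁ / 2) * phiRef σ L t₁ x)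
      rw [mul_left_comm M]
      refine mul_le_mul_of_nonneg_left ?_ hk.le
      calc φ t₁ x ≤ K * (Cr * phiRef σ L t₁ x) := p2.trans (by gcongr)
        _ = K * Cr * phiRef σ L t₁ x := by ring
        _ ≤ M * phiRef σ L t₁ x :=
            mul_le_mul_of_nonneg_right hKM (((href t₁ ⟨ht0, ht1⟩).1.pos x hxI).le)
    · rw [Assembly.deriv_rprof, ← hx_def, ← ht₁_def,
        (flow_smooth2 hflow).deriv_x ⟨ht0, ht1.le⟩ (XJ_mem_nhds hxI)]
      linarith

end Vale.Agent.P264.Middle
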