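import Vale.Agent.P264.Middle.Blocks

/-!
Averages of `1/φ` over short intervals move slowly, so a point of each interval keeps the size of
the profile at an earlier time.
-/

namespace Vale.Agent.P264.Middle

open Set Filter Topology MeasureTheory
open scoped ContDiff
open Calc (Smooth2)

/-- Even bump equal to one on `[-1/2, 1/2]`, supported in `[-1, 1]`. -/
noncomputable def hat (u : ℝ) : ℝ :=
  Real.smoothTransition (2 * u + 2) * Real.smoothTransition (2 - 2 * u)

theorem smooth_hat : ContDiff ℝ ∞ hat := by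
  unfold hat
  exact (Real.smoothTransition.contDiff.comp (by fun_prop)).mul
    (Real.smoothTransition.contDiff.comp (by fun_prop))

theorem hat_mem (u : ℝ) : 0 ≤ hat u ∧ hat u ≤ 1 :=
  ⟨mul_nonneg (Real.smoothTransition.nonneg _) (Real.smoothTransition.nonneg _),
    mul_le_one₀ (Real.smoothTransition.le_one _) (Real.smoothTransition.nonneg _)
      (Real.smoothTransition.le_one _)⟩

theorem hat_eq_zero {u : ℝ} (hu : 1 ≤ |u|) : hat u = 0 := by
  rcases le_abs'.1 hu with h | h
  · rw [hat, Real.smoothTransition.zero_of_nonpos (by linarith), zero_mul]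
  · rw [hat, Real.smoothTransition.zero_of_nonpos (show 2 - 2 * u ≤ 0 by linarith), mul_zero]

theorem hat_eq_one {u : ℝ} (hu : |u| ≤ 1 / 2) : hat u = 1 := by
  rw [abs_le] at hu
  rw [hat, Real.smoothTransition.one_of_one_le (by linarith),
    Real.smoothTransition.one_of_one_le (by linarith), one_mul]

theorem deriv_hat_end {u : ℝ} (hu : u = 1 ∨ u = -1) : deriv hat u = 0 := by
  have hd := (smooth_hat.differentiable (by simp) u).hasDerivAt
  rcases hu with rfl | rfl
  · exact (uniqueDiffOn_Ici (1:ℝ) 1 self_mem_Ici).eq_deriv _ hd.hasDerivWithinAt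
      ((hasDerivWithinAt_const (1:ℝ) (Ici 1) (0:ℝ)).congr
        (fun z (hz : 1 ≤ z) => hat_eq_zero (by rw [abs_of_nonneg (by linarith)]; exact hz))
        (hat_eq_zero (by simp)))
  · exact (uniqueDiffOn_Iic (-1:ℝ) (-1) self_mem_Iic).eq_deriv _ hd.hasDerivWithinAt
      ((hasDerivWithinAt_const (-1:ℝ) (Iic (-1)) (0:ℝ)).congr
        (fun z (hz : z ≤ -1) => hat_eq_zero (by rw [abs_of_nonpos (by linarith)]; linarith))
        (hat_eq_zero (by simp)))

theorem exists_hat_bound : ∃ H : ℝ, 1 ≤ H ∧ ∀ u ∈ Icc (-1:ℝ) 1, |deriv (deriv hat) u| ≤ H := by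
  have h1 : ContDiff ℝ ∞ (deriv hat) := (contDiff_infty_iff_deriv.1 smooth_hat).2
  obtain ⟨H, hH⟩ := (isCompact_Icc (a := (-1:ℝ)) (b := 1)).exists_bound_of_continuousOn
    (contDiff_infty_iff_deriv.1 h1).2.continuous.continuousOn
  exact ⟨max H 1, le_max_right _ _, fun u hu => (hH u hu).trans (le_max_left _ _)⟩

/-- The bump adapted to `[a, b]`. -/
noncomputable def binW (a b x : ℝ) : ℝ := hat ((x - (a + b) / 2) / ((b - a) / 2))

variable {L a b t te X C R U μ : ℝ} {φ₀ : ℝ → ℝ} {φ : ℝ → ℝ → ℝ}

/-- The average of `1/φ` against the bump. -/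
noncomputable def bin (a b : ℝ) (φ : ℝ → ℝ → ℝ) (t : ℝ) : ℝ :=
  ∫ x in a..b, binW a b x / φ t x

theorem smooth_binW : ContDiff ℝ ∞ (binW a b) := by
  unfold binW
  exact smooth_hat.comp ((contDiff_id.sub contDiff_const).div_const _)

theorem smooth_binF (h : IsFlow L 1 φ₀ φ) :
    Smooth2 TI (Ioo 0 L) fun r x => binW a b x / φ r x :=
  (smooth_binW.comp contDiff_snd).contDiffOn.div
    (h.smooth.mono (prod_mono subset_rfl Ioo_subset_Icc_self))
    fun p hp => ((h.profile p.1 hp.1).pos p.2 hp.2).ne'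

theorem hasDerivAt_bin (h : IsFlow L 1 φ₀ φ) (ha : 0 < a) (hab : a < b) (hb : b < L)
    (ht : t ∈ Ioo (0:ℝ) 1) :
    HasDerivAt (bin a b φ)
      (-∫ x in a..b, deriv (deriv (binW a b)) x * curv L φ t x) t := by
  have hL : 0 < L := by linarith
  have hsub : Icc a b ⊆ Ioo 0 L := fun z hz => ⟨ha.trans_le hz.1, hz.2.trans_lt hb⟩
  have hsubJ : Icc a b ⊆ XJ L := hsub.trans Ioo_subset_Ioc_self
  have htI : t ∈ TI := Ioo_subset_Icc_self ht
  refine (hasDerivAt_slice_integral hab.le hsub uniqueDiff_TI isOpen_Ioo.uniqueDiffOn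
    (smooth_binF h) (by rw [TI, interior_Icc]; exact ht)).congr_deriv ?_
  have e : ∀ x ∈ uIcc a b, Calc.pdT TI (Ioo 0 L) (fun r x => binW a b x / φ r x) t x
      = -(binW a b x * curv2 L φ t x) := by
    intro x hx
    rw [uIcc_of_le hab.le] at hx
    have hpos : φ t x ≠ 0 := ((h.profile t htI).pos x (hsub hx)).ne'
    rw [← (smooth_binF h).derivWithin_t uniqueDiff_TI htI (hsub hx)]
    have hd := (hasDerivWithinAt_const t TI (binW a b x)).div
      ((flow_smooth2 h).hasDerivWithinAt_t htI (hsubJ hx)) hpos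
    refine (hd.congr_deriv ?_).derivWithin (uniqueDiff_TI t htI)
    rw [pdT_flow h hL htI (hsubJ hx)]
    field_simp
    ring
  rw [intervalIntegral.integral_congr e, intervalIntegral.integral_neg, neg_inj, ← sub_eq_zero]
  have s1 := (smooth_curv h).pdX uniqueDiff_TI uniqueDiff_XJ
  have k1 : ContDiff ℝ ∞ (deriv (binW a b)) := (contDiff_infty_iff_deriv.1 smooth_binW).2
  have k2 : Continuous (deriv (deriv (binW a b))) := (contDiff_infty_iff_deriv.1 k1).2.continuous
  have sl : ∀ {F : ℝ → ℝ → ℝ}, Smooth2 TI (XJ L) F → ContinuousOn (F t) (Icc a b) :=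
    fun hF => (hF.slice_x htI).continuousOn.mono hsubJ
  have i1 : IntervalIntegrable (fun x => binW a b x * curv2 L φ t x) volume a b := by
    refine ContinuousOn.intervalIntegrable ?_
    rw [uIcc_of_le hab.le]
    exact smooth_binW.continuous.continuousOn.mul (sl (smooth_curv2 h))
  have i2 : IntervalIntegrable (fun x => deriv (deriv (binW a b)) x * curv L φ t x) volume a b := by
    refine ContinuousOn.intervalIntegrable ?_
    rw [uIcc_of_le hab.le]
    exact k2.continuousOn.mul (sl (smooth_curv h))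
  rw [← intervalIntegral.integral_sub i1 i2,
    intervalIntegral.integral_eq_sub_of_hasDerivAt
      (f := fun x => binW a b x * curv1 L φ t x - deriv (binW a b) x * curv L φ t x)
      (fun x hx => ?_) (i1.sub i2)]
  · have w0 : (b - a) / 2 ≠ 0 := by linarith
    have hd : ∀ x, deriv (binW a b) x
        = deriv hat ((x - (a + b) / 2) / ((b - a) / 2)) / ((b - a) / 2) := fun x => by
      refine HasDerivAt.deriv ?_
      refine ((smooth_hat.differentiable (by simp) _).hasDerivAt.comp x
        (((hasDerivAt_id x).sub_const ((a + b) / 2)).div_const ((b - a) / 2))).congr_deriv ?_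
      simp only [id]
      ring
    have eb : (b - (a + b) / 2) / ((b - a) / 2) = 1 := by rw [div_eq_one_iff_eq w0]; ring
    have ea : (a - (a + b) / 2) / ((b - a) / 2) = -1 := by rw [div_eq_iff w0]; ring
    rw [hd, hd, binW, binW, ea, eb, deriv_hat_end (Or.inl rfl), deriv_hat_end (Or.inr rfl),
      hat_eq_zero (u := 1) (by simp), hat_eq_zero (u := -1) (by simp)]
    ring
  · rw [uIcc_of_le hab.le] at hx
    have hx' : XJ L ∈ 𝓝 x := XJ_mem_nhds (hsub hx)
    have d0 := (smooth_binW (a := a) (b := b)).differentiable (by simp) x |>.hasDerivAt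
    have d1 := k1.differentiable (by simp) x |>.hasDerivAt
    refine ((d0.fun_mul (s1.hasDerivAt_x htI hx')).fun_sub
      (d1.fun_mul ((smooth_curv h).hasDerivAt_x htI hx'))).congr_deriv ?_
    simp only [curv1, curv2]
    ring

theorem deriv2_binW (x : ℝ) : deriv (deriv (binW a b)) x
    = deriv (deriv hat) ((x - (a + b) / 2) / ((b - a) / 2)) / ((b - a) / 2) ^ 2 := by
  set m := (a + b) / 2
  set w := (b - a) / 2
  have h1 : ContDiff ℝ ∞ (deriv hat) := (contDiff_infty_iff_deriv.1 smooth_hat).2
  have e : deriv (binW a b) = fun z => deriv hat ((z - m) / w) / w := funext fun z =>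
    (((smooth_hat.differentiable (by simp) _).hasDerivAt.comp z
      (((hasDerivAt_id z).sub_const m).div_const w)).congr_deriv (by simp only [id]; ring)).deriv
  rw [e]
  refine ((((h1.differentiable (by simp) _).hasDerivAt.comp x
    (((hasDerivAt_id x).sub_const m).div_const w)).div_const w).congr_deriv ?_).deriv
  simp only [id]
  ring_nf

/-- The `L¹` norm of the curvature over part of a block. -/
theorem int_abs_curv_le (h : IsFlow L 1 φ₀ φ) (ht : t ∈ TI) (hX : 0 < X) (hXa : X ≤ a)
    (hab : a ≤ b) (hb : b ≤ min (2 * X) L) (hC : blk L φ t X ≤ C) :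
    ∫ x in a..b, |curv L φ t x| ≤ C + 1 := by
  set m := min (2 * X) L
  have hm : X ≤ m := hXa.trans (hab.trans hb)
  have hmL : m ≤ L := min_le_right _ _
  have hsl : ContinuousOn (curv L φ t) (Icc X m) :=
    ((smooth_curv h).slice_x ht).continuousOn.mono fun z hz => ⟨hX.trans_le hz.1, hz.2.trans hmL⟩
  have ia : IntervalIntegrable (fun x => |curv L φ t x|) volume X m := by
    refine ContinuousOn.intervalIntegrable ?_; rw [uIcc_of_le hm]; exact hsl.abs
  have iq := intervalIntegrable_curv h ht hX hm hmL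
  rw [blk, div_le_iff₀ (by positivity)] at hC
  calc ∫ x in a..b, |curv L φ t x| ≤ ∫ x in X..m, |curv L φ t x| :=
        intervalIntegral.integral_mono_interval hXa hab hb
          (Eventually.of_forall fun x => abs_nonneg _) ia
    _ ≤ ∫ x in X..m, (x ^ 7 * curv L φ t x ^ 2 / (2 * X ^ 6) + 1 / (2 * X)) := by
        refine intervalIntegral.integral_mono_on hm ia
          ((iq.div_const _).add intervalIntegrable_const) fun x hx => ?_
        have h7 : X ^ 7 ≤ x ^ 7 := pow_le_pow_left₀ hX.le hx.1 7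
        rw [div_add_div _ _ (by positivity) (by positivity), le_div_iff₀ (by positivity)]
        have s := two_mul_le_add_sq (X * |curv L φ t x|) 1
        rw [mul_pow, sq_abs] at s
        have : X ^ 7 * curv L φ t x ^ 2 ≤ x ^ 7 * curv L φ t x ^ 2 :=
          mul_le_mul_of_nonneg_right h7 (sq_nonneg _)
        nlinarith [mul_le_mul_of_nonneg_left s (pow_nonneg hX.le 6),
          mul_le_mul_of_nonneg_left this hX.le]
    _ = (∫ x in X..m, x ^ 7 * curv L φ t x ^ 2) / (2 * X ^ 6) + (m - X) / (2 * X) := by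
        rw [intervalIntegral.integral_add (iq.div_const _) intervalIntegrable_const,
          intervalIntegral.integral_div, intervalIntegral.integral_const, smul_eq_mul,
          ← div_eq_mul_one_div]
    _ ≤ C + 1 := by
        refine add_le_add ?_ ?_
        · rw [div_le_iff₀ (by positivity)]
          linarith [blk_nonneg_integral (L := L) (φ := φ) (t := t) hX hm]
        · rw [div_le_one (by positivity)]
          linarith [min_le_left (2 * X) L]

/-- The bins move slowly. -/
theorem bin_change (h : IsFlow L 1 φ₀ φ) {H : ℝ}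
    (hH : ∀ u ∈ Icc (-1:ℝ) 1, |deriv (deriv hat) u| ≤ H)
    (hX : 0 < X) (hXa : X ≤ a) (hab : a < b) (hb : b ≤ 2 * X) (hbL : b < L)
    (h0 : 0 ≤ te) (hte : te ≤ t) (ht : t ≤ 1) (hC : ∀ r ∈ Icc te t, blk L φ r X ≤ C) :
    |bin a b φ t - bin a b φ te| ≤ H / ((b - a) / 2) ^ 2 * (C + 1) * (t - te) := by
  have ha : 0 < a := hX.trans_le hXa
  set D := H / ((b - a) / 2) ^ 2 * (C + 1)
  have hcont : ContinuousOn (bin a b φ) (Icc te t) := by
    refine (continuousOn_slice_integral (F := fun r x => binW a b x / φ r x) hab.le zero_le_one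
      ?_).mono (Icc_subset_Icc h0 ht)
    exact (smooth_binF h).continuousOn.mono
      (prod_mono (subset_refl _) fun z hz => ⟨ha.trans_le hz.1, hz.2.trans_lt hbL⟩)
  have hint : ∀ r ∈ interior (Icc te t), r ∈ Ioo (0:ℝ) 1 := fun r hr => by
    rw [interior_Icc] at hr
    exact ⟨h0.trans_lt hr.1, hr.2.trans_le ht⟩
  have hd : DifferentiableOn ℝ (bin a b φ) (interior (Icc te t)) := fun r hr =>
    (hasDerivAt_bin h ha hab hbL (hint r hr)).differentiableAt.differentiableWithinAt
  have hb' : ∀ r ∈ interior (Icc te t), |deriv (bin a b φ) r| ≤ D := by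
    intro r hr
    rw [(hasDerivAt_bin h ha hab hbL (hint r hr)).deriv, abs_neg]
    have hrI : r ∈ TI := Ioo_subset_Icc_self (hint r hr)
    have hw : 0 < (b - a) / 2 := by linarith
    have hH0 : 0 ≤ H := (abs_nonneg _).trans (hH 0 (by norm_num))
    have hc : ContinuousOn (curv L φ r) (Icc a b) :=
      ((smooth_curv h).slice_x hrI).continuousOn.mono
        fun z hz => ⟨ha.trans_le hz.1, hz.2.trans hbL.le⟩
    have k1 : ContDiff ℝ ∞ (deriv (binW a b)) := (contDiff_infty_iff_deriv.1 smooth_binW).2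
    refine (intervalIntegral.abs_integral_le_integral_abs hab.le).trans ?_
    calc ∫ x in a..b, |deriv (deriv (binW a b)) x * curv L φ r x|
        ≤ ∫ x in a..b, H / ((b - a) / 2) ^ 2 * |curv L φ r x| := by
          refine intervalIntegral.integral_mono_on hab.le ?_ ?_ fun x hx => ?_
          · refine ContinuousOn.intervalIntegrable ?_
            rw [uIcc_of_le hab.le]
            exact ((contDiff_infty_iff_deriv.1 k1).2.continuous.continuousOn.mul hc).abs
          · refine ContinuousOn.intervalIntegrable ?_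
            rw [uIcc_of_le hab.le]
            exact continuousOn_const.mul hc.abs
          · rw [abs_mul, deriv2_binW, abs_div, abs_of_pos (pow_pos hw 2)]
            refine mul_le_mul_of_nonneg_right (div_le_div_of_nonneg_right (hH _ ?_) (sq_nonneg _))
              (abs_nonneg _)
            rw [mem_Icc, le_div_iff₀ hw, div_le_iff₀ hw]
            constructor <;> linarith [hx.1, hx.2]
      _ ≤ D := by
          rw [intervalIntegral.integral_const_mul]
          exact mul_le_mul_of_nonneg_left (int_abs_curv_le h hrI hX hXa hab.le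
            (le_min hb hbL.le) (hC r (interior_subset hr))) (by positivity)
  rw [abs_le]
  constructor
  · have := (convex_Icc te t).mul_sub_le_image_sub_of_le_deriv hcont hd (C := -D)
      (fun r hr => (abs_le.1 (hb' r hr)).1) te ⟨le_rfl, hte⟩ t ⟨hte, le_rfl⟩ hte
    linarith
  · exact (convex_Icc te t).image_sub_le_mul_sub_of_deriv_le hcont hd
      (fun r hr => (abs_le.1 (hb' r hr)).2) te ⟨le_rfl, hte⟩ t ⟨hte, le_rfl⟩ hte

/-- Bins give a point where the profile keeps its size. -/
theorem bin_points {H c K₀ : ℝ} (h : IsFlow L 1 φ₀ φ)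
    (hH : ∀ u ∈ Icc (-1:ℝ) 1, |deriv (deriv hat) u| ≤ H) (hc : 0 < c) (hK₀ : 1 ≤ K₀)
    (hR : 0 < R) (hR2 : 4 * K₀ * H * (C + 1) < c ^ 3 * R ^ 2)
    (hX : 0 < X) (hXa : X ≤ a) (hab : a < b) (hb : b ≤ 2 * X) (hbL : b < L)
    (hw : c * X ≤ (b - a) / 2)
    (h0 : 0 ≤ te) (hte : te ≤ t) (ht : t ≤ 1) (hdur : t - te ≤ X ^ 2 / R ^ 2)
    (hC : ∀ r ∈ Icc te t, blk L φ r X ≤ C) :
    (0 < U → U ≤ 2 * K₀ * X → (∀ x ∈ Icc a b, φ te x ≤ U) → ∃ ξ ∈ Icc a b, φ t ξ ≤ 4 * U) ∧
    (0 < μ → μ ≤ X → (∀ x ∈ Icc a b, μ ≤ φ te x) → ∃ ξ ∈ Icc a b, μ / 4 ≤ φ t ξ) := by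
  set w := (b - a) / 2 with hw_def
  have hw0 : 0 < w := by linarith [mul_pos hc hX]
  have ha : 0 < a := hX.trans_le hXa
  have hteI : te ∈ TI := ⟨h0, hte.trans ht⟩
  have htI : t ∈ TI := ⟨h0.trans hte, ht⟩
  have hpos : ∀ r ∈ TI, ∀ x ∈ Icc a b, 0 < φ r x := fun r hr x hx =>
    (h.profile r hr).pos x ⟨ha.trans_le hx.1, hx.2.trans_lt hbL⟩
  have hint : ∀ r ∈ TI, ContinuousOn (fun x => binW a b x / φ r x) (Icc a b) := fun r hr =>
    ((smooth_binF h).slice_x hr).continuousOn.mono
      fun z hz => ⟨ha.trans_le hz.1, hz.2.trans_lt hbL⟩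
  have upper : ∀ r ∈ TI, ∀ v : ℝ, 0 < v → (∀ x ∈ Icc a b, v ≤ φ r x) →
      bin a b φ r ≤ 2 * w / v := by
    intro r hr v hv hle
    calc bin a b φ r ≤ ∫ _x in a..b, 1 / v := by
          refine intervalIntegral.integral_mono_on hab.le
            ((hint r hr).intervalIntegrable_of_Icc hab.le) intervalIntegrable_const fun x hx => ?_
          exact div_le_div₀ zero_le_one (hat_mem _).2 hv (hle x hx)
      _ = 2 * w / v := by
          rw [intervalIntegral.integral_const, smul_eq_mul, hw_def]; ring
  have lower : ∀ r ∈ TI, ∀ v : ℝ, (∀ x ∈ Icc a b, φ r x ≤ v) → w / v ≤ bin a b φ r := by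
    intro r hr v hle
    calc w / v = ∫ _x in (a + w / 2)..(b - w / 2), 1 / v := by
          rw [intervalIntegral.integral_const, smul_eq_mul, hw_def]; ring
      _ ≤ ∫ x in (a + w / 2)..(b - w / 2), binW a b x / φ r x := by
          refine intervalIntegral.integral_mono_on (by linarith) intervalIntegrable_const
            (((hint r hr).mono (Icc_subset_Icc (by linarith) (by linarith))).intervalIntegrable_of_Icc
              (by linarith)) fun x hx => ?_
          have hx' : x ∈ Icc a b := ⟨by linarith [hx.1], by linarith [hx.2]⟩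
          have h1 : binW a b x = 1 := by
            refine hat_eq_one ?_
            rw [← hw_def, abs_div, abs_of_pos hw0, div_le_iff₀ hw0, abs_le]
            constructor <;> linarith [hx.1, hx.2]
          rw [h1]
          exact one_div_le_one_div_of_le (hpos r hr x hx') (hle x hx')
      _ ≤ bin a b φ r := by
          refine intervalIntegral.integral_mono_interval (by linarith) (by linarith) (by linarith)
            ((ae_restrict_mem measurableSet_Ioc).mono fun x hx => ?_)
            ((hint r hr).intervalIntegrable_of_Icc hab.le)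
          exact div_nonneg (hat_mem _).1 (hpos r hr x (Ioc_subset_Icc_self hx)).le
  have hH0 : 0 ≤ H := (abs_nonneg _).trans (hH 0 (by norm_num))
  have hC0 : 0 ≤ C + 1 := (intervalIntegral.integral_nonneg (μ := volume) hab.le
    fun x _ => abs_nonneg (curv L φ t x)).trans
    (int_abs_curv_le h htI hX hXa hab.le (le_min hb hbL.le) (hC t ⟨hte, le_rfl⟩))
  have key : |bin a b φ t - bin a b φ te| < c / (4 * K₀) := by
    refine (bin_change h hH hX hXa hab hb hbL h0 hte ht hC).trans_lt ?_
    calc H / w ^ 2 * (C + 1) * (t - te) ≤ H / (c * X) ^ 2 * (C + 1) * (X ^ 2 / R ^ 2) := by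
          gcongr
      _ = H * (C + 1) / (c ^ 2 * R ^ 2) := by field_simp
      _ < c / (4 * K₀) := by
          rw [div_lt_div_iff₀ (by positivity) (by positivity)]
          linarith
  rw [abs_lt] at key
  refine ⟨fun hU hUX hte' => ?_, fun hμ hμX hte' => ?_⟩
  · by_contra hne
    push Not at hne
    have a1 := upper t htI (4 * U) (by linarith) fun x hx => (hne x hx).le
    have a2 := lower te hteI U hte'
    have e1 : 2 * w / (4 * U) = w / U / 2 := by field_simp; ring
    have : c / (4 * K₀) ≤ w / U / 2 := by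
      rw [div_div, div_le_div_iff₀ (by positivity) (by positivity)]
      calc c * (U * 2) ≤ c * (2 * K₀ * X * 2) := by gcongr
        _ = c * X * (4 * K₀) := by ring
        _ ≤ w * (4 * K₀) := by gcongr
    linarith [key.1]
  · by_contra hne
    push Not at hne
    have a1 := lower t htI (μ / 4) fun x hx => (hne x hx).le
    have a2 := upper te hteI μ hμ hte'
    have e1 : w / (μ / 4) = 4 * (w / μ) := by field_simp
    have e2 : 2 * w / μ = 2 * (w / μ) := mul_div_assoc _ _ _
    have : c / (4 * K₀) ≤ w / μ := by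
      rw [div_le_div_iff₀ (by positivity) hμ]
      calc c * μ ≤ c * X := by gcongr
        _ ≤ w * 1 := by linarith
        _ ≤ w * (4 * K₀) := by gcongr; linarith
    linarith [key.2, div_pos hw0 hμ]

end Vale.Agent.P264.Middle
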