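import Mathlib

/-!
Local Calabi energy: the static inequality behind `d/dt ∫ θ^8 x^7 S^2 ≤ C / X^2 ∫ x^7 S^2`.
The cutoff vanishes at the left end; at the right end either it vanishes or the profile does.
-/

namespace Vale.Agent.P264.Middle

open Set Filter Topology MeasureTheory intervalIntegral

variable {a b : ℝ}

theorem parts {u u' v v' : ℝ → ℝ} (hab : a ≤ b) (hu : ContinuousOn u (Icc a b))
    (hv : ContinuousOn v (Icc a b)) (hu' : ContinuousOn u' (Icc a b))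
    (hv' : ContinuousOn v' (Icc a b)) (hdu : ∀ x ∈ Ioo a b, HasDerivAt u (u' x) x)
    (hdv : ∀ x ∈ Ioo a b, HasDerivAt v (v' x) x) :
    ∫ x in a..b, u x * v' x = u b * v b - u a * v a - ∫ x in a..b, u' x * v x := by
  rw [← uIcc_of_le hab] at hu hv hu' hv'
  exact integral_mul_deriv_eq_deriv_mul_of_hasDerivAt hu hv
    (by simpa [min_eq_left hab, max_eq_right hab] using hdu)
    (by simpa [min_eq_left hab, max_eq_right hab] using hdv)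
    hu'.intervalIntegrable hv'.intervalIntegrable

/-- The constant of `block_energy`. -/
noncomputable def energyC (A : ℝ) : ℝ :=
  (512 * A ^ 3) ^ 2 / 2 + 256 * A ^ 2 * (14 + 8 * A) ^ 2 + (56 * A ^ 2 + 8 * A) ^ 2

/-- Pointwise bound for the pairing of the operator with the cutoff. -/
theorem point_pair {A X t t₁ t₂ p S S₁ S₂ w : ℝ} (hA : 0 ≤ A) (hX : 0 < X) (t0 : 0 ≤ t)
    (t1 : t ≤ 1) (w0 : 0 ≤ w) (w1 : w ≤ 1) (h₁ : |t₁| ≤ A / X) (hp₁ : |p| * |t₁| ≤ A * w)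
    (hp₂ : |p| * |t₂| ≤ A / X) :
    (t ^ 4 * |p| * |S₂|) ^ 2 / 2 - (56 * A ^ 2 + 8 * A) ^ 2 * (t ^ 2 * |S| / X) ^ 2
        - 256 * A ^ 2 * (t ^ 3 * w * |S₁|) ^ 2
      ≤ (t ^ 8 * S₂ + 16 * t ^ 7 * t₁ * S₁ + (56 * t ^ 6 * t₁ ^ 2 + 8 * t ^ 7 * t₂) * S)
          * (p ^ 2 * S₂) := by
  set D := t ^ 4 * |p| * |S₂| with hD
  set U := t ^ 3 * w * |S₁| with hU
  set V := t ^ 2 * |S| / X with hV
  set B := 56 * A ^ 2 + 8 * A with hB
  have k0 : t ^ 8 * S₂ * (p ^ 2 * S₂) = D ^ 2 := by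
    rw [hD, mul_pow, mul_pow, sq_abs, sq_abs]; ring
  have k1 : |16 * t ^ 7 * t₁ * S₁ * (p ^ 2 * S₂)| ≤ 16 * A * D * U := by
    calc |16 * t ^ 7 * t₁ * S₁ * (p ^ 2 * S₂)|
        = 16 * t ^ 7 * (|p| * |t₁|) * |S₁| * |p| * |S₂| := by
          simp only [abs_mul, abs_pow, abs_of_nonneg t0, abs_of_pos (show (0:ℝ) < 16 by norm_num)]
          ring
      _ ≤ 16 * t ^ 7 * (A * w) * |S₁| * |p| * |S₂| := by gcongr
      _ = 16 * A * D * U := by rw [hD, hU]; ring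
  have k2 : |(56 * t ^ 6 * t₁ ^ 2 + 8 * t ^ 7 * t₂) * S * (p ^ 2 * S₂)| ≤ B * D * V := by
    have h1 : |p| * t₁ ^ 2 ≤ A ^ 2 / X := by
      calc |p| * t₁ ^ 2 = (|p| * |t₁|) * |t₁| := by rw [← sq_abs t₁]; ring
        _ ≤ (A * w) * (A / X) := mul_le_mul hp₁ h₁ (abs_nonneg _) (by positivity)
        _ ≤ (A * 1) * (A / X) := by gcongr
        _ = A ^ 2 / X := by ring
    have h2 : t ^ 7 ≤ t ^ 6 := pow_le_pow_of_le_one t0 t1 (by norm_num)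
    calc |(56 * t ^ 6 * t₁ ^ 2 + 8 * t ^ 7 * t₂) * S * (p ^ 2 * S₂)|
        ≤ (56 * t ^ 6 * t₁ ^ 2 + 8 * t ^ 7 * |t₂|) * |S| * (p ^ 2 * |S₂|) := by
          rw [abs_mul, abs_mul, abs_mul, abs_pow, sq_abs]
          gcongr
          refine (abs_add_le _ _).trans_eq ?_
          rw [abs_of_nonneg (by positivity : (0:ℝ) ≤ 56 * t ^ 6 * t₁ ^ 2), abs_mul,
            abs_of_nonneg (by positivity : (0:ℝ) ≤ 8 * t ^ 7)]
      _ = (56 * t ^ 6 * (|p| * t₁ ^ 2) + 8 * t ^ 7 * (|p| * |t₂|)) * |S| * |p| * |S₂| := by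
          rw [← sq_abs p]; ring
      _ ≤ (56 * t ^ 6 * (A ^ 2 / X) + 8 * t ^ 6 * (A / X)) * |S| * |p| * |S₂| := by gcongr
      _ = B * D * V := by rw [hB, hD, hV]; ring
  rw [show (t ^ 8 * S₂ + 16 * t ^ 7 * t₁ * S₁ + (56 * t ^ 6 * t₁ ^ 2 + 8 * t ^ 7 * t₂) * S)
      * (p ^ 2 * S₂) = t ^ 8 * S₂ * (p ^ 2 * S₂) + 16 * t ^ 7 * t₁ * S₁ * (p ^ 2 * S₂)
      + (56 * t ^ 6 * t₁ ^ 2 + 8 * t ^ 7 * t₂) * S * (p ^ 2 * S₂) by ring, k0]
  linarith [sq_nonneg (D / 2 - 16 * A * U), sq_nonneg (D / 2 - B * V),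
    (abs_le.1 k1).1, (abs_le.1 k2).1]

/-- Pointwise bound for the first derivative term. -/
theorem point_first {A X x t t₁ p S S₁ S₂ w w₁ : ℝ} (hA : 0 ≤ A) (hX : 0 < X) (hx : X / 2 ≤ x)
    (t0 : 0 ≤ t) (t1 : t ≤ 1) (w0 : 0 ≤ w) (w1 : w ≤ 1) (hw₁ : |w₁| ≤ A / X) (h₁ : |t₁| ≤ A / X)
    (hwp : w ^ 2 ≤ A * |p| / X) :
    -(x ^ 7 * t ^ 6 * w ^ 2 * S * S₂)
        - (7 * x ^ 6 * t ^ 6 * w ^ 2 + 6 * x ^ 7 * t ^ 5 * t₁ * w ^ 2
            + 2 * x ^ 7 * t ^ 6 * w * w₁) * S * S₁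
      ≤ x ^ 7 * t ^ 6 * w ^ 2 * S₁ ^ 2 / 2
        + x ^ 7 * ((14 + 8 * A) ^ 2 / 2 * (t ^ 2 * |S| / X) ^ 2
          + A * (t ^ 4 * |p| * |S₂|) * (t ^ 2 * |S| / X)) := by
  set D := t ^ 4 * |p| * |S₂| with hD
  set U := t ^ 3 * w * |S₁| with hU
  set V := t ^ 2 * |S| / X with hV
  set E := 14 + 8 * A with hE
  have hx0 : 0 < x := by linarith
  have ηU : x ^ 7 * t ^ 6 * w ^ 2 * S₁ ^ 2 = x ^ 7 * U ^ 2 := by rw [hU, mul_pow, sq_abs]; ring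
  have k1 : -(x ^ 7 * t ^ 6 * w ^ 2 * S * S₂) ≤ x ^ 7 * (A * D * V) := by
    refine (neg_le_abs _).trans ?_
    calc |x ^ 7 * t ^ 6 * w ^ 2 * S * S₂| = x ^ 7 * t ^ 6 * w ^ 2 * (|S| * |S₂|) := by
          simp only [abs_mul, abs_pow, abs_of_nonneg t0, abs_of_nonneg w0, abs_of_pos hx0]
          ring
      _ ≤ x ^ 7 * t ^ 6 * (A * |p| / X) * (|S| * |S₂|) := by gcongr
      _ = x ^ 7 * (A * D * V) := by rw [hD, hV]; ring
  have hη₁ : |7 * x ^ 6 * t ^ 6 * w ^ 2 + 6 * x ^ 7 * t ^ 5 * t₁ * w ^ 2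
      + 2 * x ^ 7 * t ^ 6 * w * w₁| ≤ x ^ 7 * t ^ 5 * w * (E / X) := by
    have hxinv : 7 * x ^ 6 ≤ 14 / X * x ^ 7 := by
      rw [div_mul_eq_mul_div, le_div_iff₀ hX]
      linarith [mul_le_mul_of_nonneg_left (show X ≤ 2 * x by linarith)
        (show (0:ℝ) ≤ 7 * x ^ 6 by positivity)]
    refine (abs_add_three _ _ _).trans ?_
    simp only [abs_mul, abs_pow, abs_of_nonneg t0, abs_of_nonneg w0, abs_of_pos hx0,
      abs_of_pos (show (0:ℝ) < 7 by norm_num), abs_of_pos (show (0:ℝ) < 6 by norm_num), abs_two]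
    calc 7 * x ^ 6 * t ^ 6 * w ^ 2 + 6 * x ^ 7 * t ^ 5 * |t₁| * w ^ 2
          + 2 * x ^ 7 * t ^ 6 * w * |w₁|
        ≤ 14 / X * x ^ 7 * t ^ 5 * w + 6 * x ^ 7 * t ^ 5 * (A / X) * w
          + 2 * x ^ 7 * t ^ 5 * w * (A / X) := by
          have h6 : t ^ 6 ≤ t ^ 5 := pow_le_pow_of_le_one t0 t1 (by norm_num)
          have h2 : w ^ 2 ≤ w := pow_le_of_le_one w0 w1 two_ne_zero
          gcongr
      _ = x ^ 7 * t ^ 5 * w * (E / X) := by rw [hE]; ring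
  set η₁ := 7 * x ^ 6 * t ^ 6 * w ^ 2 + 6 * x ^ 7 * t ^ 5 * t₁ * w ^ 2
      + 2 * x ^ 7 * t ^ 6 * w * w₁
  have k2 : -(η₁ * S * S₁) ≤ x ^ 7 * (E * U * V) := by
    refine (neg_le_abs _).trans ?_
    rw [abs_mul, abs_mul]
    calc |η₁| * |S| * |S₁| ≤ x ^ 7 * t ^ 5 * w * (E / X) * |S| * |S₁| := by gcongr
      _ = x ^ 7 * (E * U * V) := by rw [hU, hV]; ring
  have k3 : x ^ 7 * (E * U * V) ≤ x ^ 7 * (U ^ 2 / 2 + E ^ 2 / 2 * V ^ 2) :=
    mul_le_mul_of_nonneg_left (by linarith [sq_nonneg (U - E * V)]) (by positivity)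
  rw [ηU]
  linarith

theorem block_energy {A X : ℝ} (hA : 0 ≤ A) (hX : 0 < X) (ha : X / 2 ≤ a) (hab : a ≤ b)
    {θ θ₁ θ₂ p S S₁ S₂ G G₁ G₂ w w₁ : ℝ → ℝ}
    (cθ : ContinuousOn θ (Icc a b)) (cθ₁ : ContinuousOn θ₁ (Icc a b))
    (cθ₂ : ContinuousOn θ₂ (Icc a b)) (cp : ContinuousOn p (Icc a b))
    (cS : ContinuousOn S (Icc a b)) (cS₁ : ContinuousOn S₁ (Icc a b))
    (cS₂ : ContinuousOn S₂ (Icc a b)) (cG₁ : ContinuousOn G₁ (Icc a b))
    (cG₂ : ContinuousOn G₂ (Icc a b)) (cw : ContinuousOn w (Icc a b))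
    (cw₁ : ContinuousOn w₁ (Icc a b))
    (dθ : ∀ x ∈ Ioo a b, HasDerivAt θ (θ₁ x) x) (dθ₁ : ∀ x ∈ Ioo a b, HasDerivAt θ₁ (θ₂ x) x)
    (dS : ∀ x ∈ Ioo a b, HasDerivAt S (S₁ x) x) (dS₁ : ∀ x ∈ Ioo a b, HasDerivAt S₁ (S₂ x) x)
    (dG : ∀ x ∈ Ioo a b, HasDerivAt G (G₁ x) x) (dG₁ : ∀ x ∈ Ioo a b, HasDerivAt G₁ (G₂ x) x)
    (dw : ∀ x ∈ Ioo a b, HasDerivAt w (w₁ x) x)
    (hG : ∀ x ∈ Icc a b, G x = x ^ 7 * p x ^ 2 * S₂ x)
    (hθa : θ a = 0) (hb : θ b = 0 ∨ (G b = 0 ∧ G₁ b = 0 ∧ w b = 0))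
    (hθ : ∀ x ∈ Icc a b, 0 ≤ θ x ∧ θ x ≤ 1) (hw : ∀ x ∈ Icc a b, 0 ≤ w x ∧ w x ≤ 1)
    (hw₁ : ∀ x ∈ Icc a b, |w₁ x| ≤ A / X) (hθ₁ : ∀ x ∈ Icc a b, |θ₁ x| ≤ A / X)
    (hθ₂ : ∀ x ∈ Icc a b, |p x| * |θ₂ x| ≤ A / X)
    (hpθ : ∀ x ∈ Icc a b, |p x| * |θ₁ x| ≤ A * w x)
    (hwp : ∀ x ∈ Icc a b, w x ^ 2 ≤ A * |p x| / X) :
    -(∫ x in a..b, θ x ^ 8 * S x * G₂ x) ≤ energyC A / X ^ 2 * ∫ x in a..b, x ^ 7 * S x ^ 2 := by
  have hpos : ∀ x ∈ Icc a b, 0 < x := fun x hx => lt_of_lt_of_le (by linarith) (ha.trans hx.1)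
  have ii : ∀ {f : ℝ → ℝ}, ContinuousOn f (Icc a b) → IntervalIntegrable f volume a b :=
    fun {f} hf => by rw [← uIcc_of_le hab] at hf; exact hf.intervalIntegrable
  have cG : ContinuousOn G (Icc a b) :=
    (((continuousOn_id.pow 7).mul (cp.pow 2)).mul cS₂).congr hG
  -- the operator applied to the cutoff times S
  set u₁ : ℝ → ℝ := fun x => 8 * θ x ^ 7 * θ₁ x * S x + θ x ^ 8 * S₁ x
  set u₂ : ℝ → ℝ := fun x => θ x ^ 8 * S₂ x + 16 * θ x ^ 7 * θ₁ x * S₁ x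
    + (56 * θ x ^ 6 * θ₁ x ^ 2 + 8 * θ x ^ 7 * θ₂ x) * S x
  have du₁ : ∀ x ∈ Ioo a b, HasDerivAt (fun z => θ z ^ 8 * S z) (u₁ x) x := fun x hx =>
    (((dθ x hx).pow 8).mul (dS x hx)).congr_deriv (by simp only [u₁, Pi.pow_apply]; push_cast; ring)
  have du₂ : ∀ x ∈ Ioo a b, HasDerivAt u₁ (u₂ x) x := fun x hx =>
    (((((dθ x hx).pow 7).const_mul 8).mul (dθ₁ x hx)).mul (dS x hx) |>.add
      (((dθ x hx).pow 8).mul (dS₁ x hx))).congr_deriv (by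
        simp only [u₂, Pi.pow_apply, Pi.mul_apply]; push_cast; ring)
  have cu₁ : ContinuousOn u₁ (Icc a b) := by fun_prop
  have cu₂ : ContinuousOn u₂ (Icc a b) := by fun_prop
  have e1 : ∫ x in a..b, θ x ^ 8 * S x * G₂ x = ∫ x in a..b, u₂ x * G x := by
    have cθS : ContinuousOn (fun z => θ z ^ 8 * S z) (Icc a b) := (cθ.pow 8).mul cS
    rw [parts hab cθS cG₁ cu₁ cG₂ du₁ dG₁, parts hab cu₁ cG cu₂ cG₁ du₂ dG]
    simp only [hθa, u₁, u₂]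
    rcases hb with h | ⟨h1, h2, -⟩
    · simp [h]
    · simp [h1, h2]
  -- the first derivative of S
  set η : ℝ → ℝ := fun x => x ^ 7 * θ x ^ 6 * w x ^ 2
  set η₁ : ℝ → ℝ := fun x => 7 * x ^ 6 * θ x ^ 6 * w x ^ 2 + 6 * x ^ 7 * θ x ^ 5 * θ₁ x * w x ^ 2
    + 2 * x ^ 7 * θ x ^ 6 * w x * w₁ x
  have dη : ∀ x ∈ Ioo a b, HasDerivAt η (η₁ x) x := fun x hx =>
    ((((hasDerivAt_id x).pow 7).mul ((dθ x hx).pow 6)).mul ((dw x hx).pow 2)).congr_deriv (by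
      simp only [η₁, id_eq, Pi.pow_apply, Pi.mul_apply]; push_cast; ring)
  have cη : ContinuousOn η (Icc a b) := by fun_prop
  have cη₁ : ContinuousOn η₁ (Icc a b) := by fun_prop
  have dηS : ∀ x ∈ Ioo a b, HasDerivAt (fun z => η z * S z) (η₁ x * S x + η x * S₁ x) x :=
    fun x hx => (dη x hx).mul (dS x hx)
  have iη : IntervalIntegrable (fun x => η x * S₁ x ^ 2) volume a b := ii (by fun_prop)
  have iB : IntervalIntegrable (fun x => η x * S x * S₂ x) volume a b := ii (by fun_prop)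
  have iC : IntervalIntegrable (fun x => η₁ x * S x * S₁ x) volume a b := ii (by fun_prop)
  have e2 : ∫ x in a..b, η x * S₁ x ^ 2
      = -(∫ x in a..b, η x * S x * S₂ x) - ∫ x in a..b, η₁ x * S x * S₁ x := by
    have c1 : ContinuousOn (fun z => η z * S z) (Icc a b) := cη.mul cS
    have c2 : ContinuousOn (fun x => η₁ x * S x + η x * S₁ x) (Icc a b) :=
      (cη₁.mul cS).add (cη.mul cS₁)
    have h := parts hab c1 cS₁ c2 cS₂ dηS dS₁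
    have z : η b * S b * S₁ b = 0 ∧ η a * S a * S₁ a = 0 := by
      simp only [η, hθa]
      rcases hb with h | ⟨-, -, h⟩ <;> simp [h]
    rw [z.1, z.2, show (fun x => (η₁ x * S x + η x * S₁ x) * S₁ x)
      = fun x => η₁ x * S x * S₁ x + η x * S₁ x ^ 2 from funext fun x => by ring,
      integral_add iC iη] at h
    linarith
  -- pointwise bounds
  set D : ℝ → ℝ := fun x => θ x ^ 4 * |p x| * |S₂ x| with hD
  set V : ℝ → ℝ := fun x => θ x ^ 2 * |S x| / X with hV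
  set B : ℝ := 56 * A ^ 2 + 8 * A with hB
  set E : ℝ := 14 + 8 * A with hE
  have point : ∀ x ∈ Icc a b,
      x ^ 7 * (D x ^ 2 / 2 - B ^ 2 * V x ^ 2) - 256 * A ^ 2 * (η x * S₁ x ^ 2) ≤ u₂ x * G x ∧
      -(η x * S x * S₂ x) - η₁ x * S x * S₁ x
        ≤ η x * S₁ x ^ 2 / 2 + x ^ 7 * (E ^ 2 / 2 * V x ^ 2 + A * D x * V x) := by
    intro x hx
    obtain ⟨t0, t1⟩ := hθ x hx
    obtain ⟨w0, w1⟩ := hw x hx
    refine ⟨?_, point_first hA hX (ha.trans hx.1) t0 t1 w0 w1 (hw₁ x hx) (hθ₁ x hx) (hwp x hx)⟩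
    have h := mul_le_mul_of_nonneg_left
      (point_pair (S := S x) (S₁ := S₁ x) (S₂ := S₂ x) hA hX t0 t1 w0 w1 (hθ₁ x hx) (hpθ x hx)
        (hθ₂ x hx))
      (pow_nonneg (hpos x hx).le 7)
    simp only [mul_pow, sq_abs] at h
    rw [hG x hx]
    simp only [hD, hV, hB, u₂, η, div_pow, mul_pow, sq_abs] at h ⊢
    linarith
  -- integrate
  have cD : ContinuousOn D (Icc a b) := by fun_prop
  have cV : ContinuousOn V (Icc a b) := by fun_prop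
  have cV2 : ContinuousOn (fun x => x ^ 7 * V x ^ 2) (Icc a b) := by fun_prop
  have cD2 : ContinuousOn (fun x => x ^ 7 * D x ^ 2) (Icc a b) := by fun_prop
  have cDV : ContinuousOn (fun x => x ^ 7 * (D x * V x)) (Icc a b) := by fun_prop
  have iu : IntervalIntegrable (fun x => u₂ x * G x) volume a b := ii (by fun_prop)
  have m1 : (∫ x in a..b, x ^ 7 * D x ^ 2) / 2 - B ^ 2 * (∫ x in a..b, x ^ 7 * V x ^ 2)
      - 256 * A ^ 2 * (∫ x in a..b, η x * S₁ x ^ 2) ≤ ∫ x in a..b, u₂ x * G x := by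
    have h := integral_mono_on hab
      (((ii cD2).div_const 2).sub ((ii cV2).const_mul (B ^ 2)) |>.sub (iη.const_mul (256 * A ^ 2)))
      iu fun x hx => le_trans (le_of_eq (by ring)) (point x hx).1
    rwa [integral_sub (((ii cD2).div_const 2).sub ((ii cV2).const_mul _)) (iη.const_mul _),
      integral_sub ((ii cD2).div_const 2) ((ii cV2).const_mul _), intervalIntegral.integral_div,
      intervalIntegral.integral_const_mul, intervalIntegral.integral_const_mul] at h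
  have m2 : ∫ x in a..b, η x * S₁ x ^ 2 ≤ (∫ x in a..b, η x * S₁ x ^ 2) / 2
      + E ^ 2 / 2 * (∫ x in a..b, x ^ 7 * V x ^ 2) + A * ∫ x in a..b, x ^ 7 * (D x * V x) := by
    have h := integral_mono_on hab
      ((show IntervalIntegrable (fun x => -(η x * S x * S₂ x)) volume a b from iB.neg).sub iC)
      (((iη.div_const 2).add ((ii cV2).const_mul (E ^ 2 / 2))).add ((ii cDV).const_mul A))
      fun x hx => (point x hx).2.trans (le_of_eq (by ring))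
    rwa [integral_sub (show IntervalIntegrable (fun x => -(η x * S x * S₂ x)) volume a b from iB.neg) iC,
      intervalIntegral.integral_neg, integral_add ((iη.div_const 2).add ((ii cV2).const_mul _))
        ((ii cDV).const_mul _), integral_add (iη.div_const 2) ((ii cV2).const_mul _),
      intervalIntegral.integral_div, intervalIntegral.integral_const_mul, intervalIntegral.integral_const_mul, ← e2] at h
  have m3 : 512 * A ^ 3 * (∫ x in a..b, x ^ 7 * (D x * V x))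
      ≤ (∫ x in a..b, x ^ 7 * D x ^ 2) / 2
        + (512 * A ^ 3) ^ 2 / 2 * ∫ x in a..b, x ^ 7 * V x ^ 2 := by
    rw [← intervalIntegral.integral_const_mul, ← intervalIntegral.integral_div, ← intervalIntegral.integral_const_mul,
      ← integral_add ((ii cD2).div_const 2) ((ii cV2).const_mul _)]
    refine integral_mono_on hab ((ii cDV).const_mul _)
      (((ii cD2).div_const 2).add ((ii cV2).const_mul _)) fun x hx => ?_
    have := mul_nonneg (pow_nonneg (hpos x hx).le 7) (sq_nonneg (D x - 512 * A ^ 3 * V x))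
    linarith [this]
  have m4 : ∫ x in a..b, x ^ 7 * V x ^ 2 ≤ (∫ x in a..b, x ^ 7 * S x ^ 2) / X ^ 2 := by
    rw [← intervalIntegral.integral_div]
    refine integral_mono_on hab (ii cV2)
      ((ii (show ContinuousOn (fun x => x ^ 7 * S x ^ 2) (Icc a b) by fun_prop)).div_const _)
      fun x hx => ?_
    have h4 : θ x ^ 4 ≤ 1 := pow_le_one₀ (hθ x hx).1 (hθ x hx).2
    calc x ^ 7 * V x ^ 2 = θ x ^ 4 * (x ^ 7 * S x ^ 2 / X ^ 2) := by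
          simp only [V]; rw [div_pow, mul_pow, sq_abs]; ring
      _ ≤ 1 * (x ^ 7 * S x ^ 2 / X ^ 2) :=
          mul_le_mul_of_nonneg_right h4
            (div_nonneg (mul_nonneg (pow_nonneg (hpos x hx).le 7) (sq_nonneg _)) (sq_nonneg _))
      _ = x ^ 7 * S x ^ 2 / X ^ 2 := one_mul _
  rw [e1]
  have hC : 0 ≤ energyC A := by rw [energyC]; positivity
  have m5 := mul_le_mul_of_nonneg_left m2 (show (0:ℝ) ≤ 512 * A ^ 2 by positivity)
  have m6 := mul_le_mul_of_nonneg_left m4 hC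
  rw [div_mul_eq_mul_div, ← mul_div_assoc']
  rw [energyC] at m6 ⊢
  linarith

end Vale.Agent.P264.Middle
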