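import Vale.Agent.P264.Middle.Blocks

/-!
The sup over dyadic blocks: the energy of a block gains at most `C / R^2` times the sup.
-/

namespace Vale.Agent.P264.Middle

open Set Filter Topology MeasureTheory
open scoped ContDiff

variable {L M K X R C₀ : ℝ} {φ₀ : ℝ → ℝ} {φ : ℝ → ℝ → ℝ} {t : ℝ}

theorem blk_nonneg (hX : 0 < X) (hXL : X ≤ L) : 0 ≤ blk L φ t X :=
  div_nonneg (blk_nonneg_integral hX (le_min (by linarith) hXL)) (by positivity)

theorem integral_eq_blk (hY : 0 < X) (h2 : 2 * X ≤ L) :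
    ∫ x in X..2 * X, x ^ 7 * curv L φ t x ^ 2 = X ^ 6 * blk L φ t X := by
  rw [blk, min_eq_left h2, mul_div_cancel₀ _ (by positivity)]

theorem window_bump (h : IsFlow L 1 φ₀ φ) (ht : t ∈ TI) (hX : 0 < X) (h4 : 4 * X ≤ L) {B : ℝ}
    (hB0 : 0 ≤ B) (hB : ∀ Y ∈ Icc (X / 2) (2 * X), blk L φ t Y ≤ B) :
    ∫ x in X / 2..4 * X, x ^ 7 * curv L φ t x ^ 2 ≤ 4161 * X ^ 6 * B := by
  have i : ∀ a b : ℝ, X / 2 ≤ a → a ≤ b → b ≤ L →
      IntervalIntegrable (fun x => x ^ 7 * curv L φ t x ^ 2) volume a b := fun a b h1 h2 h3 =>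
    intervalIntegrable_curv h ht (by linarith) h2 h3
  have e := intervalIntegral.integral_add_adjacent_intervals
    (i (X / 2) X le_rfl (by linarith) (by linarith))
    (i X (2 * X) (by linarith) (by linarith) (by linarith))
  have e' := intervalIntegral.integral_add_adjacent_intervals
    (i (X / 2) (2 * X) le_rfl (by linarith) (by linarith))
    (i (2 * X) (4 * X) (by linarith) (by linarith) (by linarith))
  have h1 := integral_eq_blk (φ := φ) (t := t) (by linarith : (0:ℝ) < X / 2)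
    (by linarith : 2 * (X / 2) ≤ L)
  rw [show 2 * (X / 2) = X by ring] at h1
  have h2 := integral_eq_blk (φ := φ) (t := t) hX (by linarith : 2 * X ≤ L)
  have h3 := integral_eq_blk (φ := φ) (t := t) (by linarith : (0:ℝ) < 2 * X)
    (by linarith : 2 * (2 * X) ≤ L)
  rw [show 2 * (2 * X) = 4 * X by ring] at h3
  rw [← e', ← e, h1, h2, h3]
  have h6 : (0:ℝ) ≤ X ^ 6 := by positivity
  have b1 := mul_le_mul_of_nonneg_left (hB (X / 2) ⟨le_rfl, by linarith⟩) h6
  have b2 := mul_le_mul_of_nonneg_left (hB X ⟨by linarith, by linarith⟩) h6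
  have b3 := mul_le_mul_of_nonneg_left (hB (2 * X) ⟨by linarith, le_rfl⟩) h6
  rw [div_pow, mul_pow]
  linarith [mul_nonneg h6 hB0]

theorem window_end (h : IsFlow L 1 φ₀ φ) (ht : t ∈ TI) (hL : 0 < L) {B : ℝ} (hB0 : 0 ≤ B)
    (hB : ∀ Y ∈ Icc (L / 8) L, blk L φ t Y ≤ B) :
    ∫ x in L / 8..L, x ^ 7 * curv L φ t x ^ 2 ≤ 4161 * (L / 8) ^ 6 * B := by
  have i : ∀ a b : ℝ, L / 8 ≤ a → a ≤ b → b ≤ L →
      IntervalIntegrable (fun x => x ^ 7 * curv L φ t x ^ 2) volume a b := fun a b h1 h2 h3 =>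
    intervalIntegrable_curv h ht (by linarith) h2 h3
  have e := intervalIntegral.integral_add_adjacent_intervals
    (i (L / 8) (L / 4) le_rfl (by linarith) (by linarith))
    (i (L / 4) (L / 2) (by linarith) (by linarith) (by linarith))
  have e' := intervalIntegral.integral_add_adjacent_intervals
    (i (L / 8) (L / 2) le_rfl (by linarith) (by linarith))
    (i (L / 2) L (by linarith) (by linarith) le_rfl)
  have h1 := integral_eq_blk (φ := φ) (t := t) (by linarith : (0:ℝ) < L / 8)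
    (by linarith : 2 * (L / 8) ≤ L)
  rw [show 2 * (L / 8) = L / 4 by ring] at h1
  have h2 := integral_eq_blk (φ := φ) (t := t) (by linarith : (0:ℝ) < L / 4)
    (by linarith : 2 * (L / 4) ≤ L)
  rw [show 2 * (L / 4) = L / 2 by ring] at h2
  have h3 := integral_eq_blk (φ := φ) (t := t) (by linarith : (0:ℝ) < L / 2)
    (by linarith : 2 * (L / 2) ≤ L)
  rw [show 2 * (L / 2) = L by ring] at h3
  rw [← e', ← e, h1, h2, h3]
  have h6 : (0:ℝ) ≤ L ^ 6 := by positivity
  have b1 := mul_le_mul_of_nonneg_left (hB (L / 8) ⟨le_rfl, by linarith⟩) h6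
  have b2 := mul_le_mul_of_nonneg_left (hB (L / 4) ⟨by linarith, by linarith⟩) h6
  have b3 := mul_le_mul_of_nonneg_left (hB (L / 2) ⟨by linarith, by linarith⟩) h6
  simp only [div_pow]
  linarith [mul_nonneg h6 hB0]

theorem energy_le_window (h : IsFlow L 1 φ₀ φ) (ht : t ∈ TI) {θ : ℝ → ℝ} (hθ : Continuous θ)
    (h01 : ∀ x, 0 ≤ θ x ∧ θ x ≤ 1) {a b : ℝ} (ha : 0 < a) (hab : a ≤ b) (hb : b ≤ L) :
    energy L θ a b φ t ≤ ∫ x in a..b, x ^ 7 * curv L φ t x ^ 2 := by
  have hi := intervalIntegrable_curv h ht ha hab hb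
  refine intervalIntegral.integral_mono_on hab
    ((hi.continuousOn_mul (hθ.pow 8).continuousOn).congr fun x _ => (mul_assoc _ _ _).symm) hi
    fun x hx => ?_
  rw [mul_assoc]
  exact mul_le_of_le_one_left (mul_nonneg (pow_nonneg (ha.le.trans hx.1) 7) (sq_nonneg _))
    (pow_le_one₀ (h01 x).1 (h01 x).2)

theorem plateau_le_energy (h : IsFlow L 1 φ₀ φ) (ht : t ∈ TI) {θ : ℝ → ℝ} (hθ : Continuous θ)
    {a b c d : ℝ} (ha : 0 < a) (hac : a ≤ c) (hcd : c ≤ d) (hdb : d ≤ b) (hb : b ≤ L)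
    (h1 : ∀ x ∈ Icc c d, θ x = 1) :
    ∫ x in c..d, x ^ 7 * curv L φ t x ^ 2 ≤ energy L θ a b φ t := by
  have hi := intervalIntegrable_curv h ht ha (hac.trans (hcd.trans hdb)) hb
  refine le_trans (le_of_eq ?_) (intervalIntegral.integral_mono_interval hac hcd hdb ?_
    ((hi.continuousOn_mul (hθ.pow 8).continuousOn).congr fun x _ => (mul_assoc _ _ _).symm))
  · refine intervalIntegral.integral_congr fun x hx => ?_
    rw [uIcc_of_le hcd] at hx
    rw [h1 x hx, one_pow, one_mul]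
  · refine (ae_restrict_mem measurableSet_Ioc).mono fun x hx => ?_
    show (0:ℝ) ≤ θ x ^ 8 * x ^ 7 * curv L φ t x ^ 2
    exact mul_nonneg (mul_nonneg (Even.pow_nonneg (by decide) _)
      (pow_nonneg (ha.le.trans hx.1.le) 7)) (sq_nonneg _)

theorem energy_growth (h : IsFlow L 1 φ₀ φ) (hX : 0 < X) (hX4 : 4 * X ≤ L / 2) (hK : 1 ≤ K)
    (hM : 1 ≤ M) {κ : ℝ → ℝ} (hκ : Shape K κ) {a b : ℝ} (ha : X / 2 ≤ a) (hab : a ≤ b)
    (hb : b ≤ L) (ha0 : κ (a / X) = 0) (hend : κ (b / X) = 0 ∨ b = L)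
    {te : ℝ} (h0 : 0 ≤ te) (hte : te ≤ t) (ht1 : t ≤ 1) (hdur : t - te ≤ 4 * X ^ 2 / R ^ 2)
    (hR : 0 < R) (hcomp : ∀ r ∈ Icc te t, Comparable L M φ r (Icc a b)) {B : ℝ} (hB : 0 ≤ B)
    (hwin : ∀ r ∈ Icc te t, ∫ x in a..b, x ^ 7 * curv L φ r x ^ 2 ≤ 4161 * X ^ 6 * B) :
    energy L (fun x => κ (x / X)) a b φ t ≤ energy L (fun x => κ (x / X)) a b φ te
      + 8 * 4161 * energyC (sizeA K M) / R ^ 2 * B * X ^ 6 := by
  have hL : 0 < L := by linarith
  have hθ : ContDiff ℝ ∞ fun x => κ (x / X) := hκ.smooth.comp (by fun_prop)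
  have ha' : 0 < a := by linarith
  have hC : 0 ≤ energyC (sizeA K M) := by
    have : 0 ≤ sizeA K M := by unfold sizeA; positivity
    unfold energyC; positivity
  set D : ℝ := 2 * energyC (sizeA K M) / X ^ 2 * (4161 * X ^ 6 * B)
  have hD : 0 ≤ D := by positivity
  have hint : ∀ r ∈ interior (Icc te t), r ∈ Ioo (0:ℝ) 1 := fun r hr => by
    rw [interior_Icc] at hr
    exact ⟨h0.trans_lt hr.1, hr.2.trans_le ht1⟩
  have hmv := (convex_Icc te t).image_sub_le_mul_sub_of_deriv_le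
    ((continuousOn_energy h hθ.continuous ha' hab hb).mono (Icc_subset_Icc h0 ht1))
    (fun r hr =>
      (hasDerivAt_energy h hL hθ ha' hab hb (hint r hr)).differentiableAt.differentiableWithinAt)
    (C := D) (fun r hr => by
      refine (energy_deriv_le h hX hX4 hK hM hκ ha hab hb ha0 hend (hint r hr)
        (hcomp r (interior_subset hr))).trans ?_
      exact mul_le_mul_of_nonneg_left (hwin r (interior_subset hr)) (by positivity))
    te ⟨le_rfl, hte⟩ t ⟨hte, le_rfl⟩ hte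
  calc energy L (fun x => κ (x / X)) a b φ t
      ≤ energy L (fun x => κ (x / X)) a b φ te + D * (t - te) := by linarith
    _ ≤ energy L (fun x => κ (x / X)) a b φ te + D * (4 * X ^ 2 / R ^ 2) := by gcongr
    _ = _ := by simp only [D]; field_simp; ring

/-- Bounds at entry into the middle region give bounds in all of it. -/
theorem block_bound : ∃ W : ℝ, 1 ≤ W ∧ ∀ M : ℝ, 1 ≤ M → ∃ R₁ : ℝ, 0 < R₁ ∧
    ∀ R : ℝ, R₁ ≤ R → ∀ L : ℝ, 8 * R ≤ L → ∀ (φ₀ : ℝ → ℝ) (φ : ℝ → ℝ → ℝ), IsFlow L 1 φ₀ φ →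
    ∀ t₁ : ℝ, 0 ≤ t₁ → t₁ < 1 → ∀ C₀ : ℝ,
      (∀ r ∈ Icc 0 t₁, Comparable L M φ r (Icc (R * Real.sqrt (1 - r) / 16) L)) →
      (∀ Y ∈ Icc (R / 16) L, blk L φ 0 Y ≤ C₀) →
      (∀ r ∈ Icc 0 t₁, ∀ Y ∈ Icc (R * Real.sqrt (1 - r) / 16) (R * Real.sqrt (1 - r)),
        blk L φ r Y ≤ C₀) →
      ∀ r ∈ Icc 0 t₁, ∀ Y ∈ Icc (R * Real.sqrt (1 - r) / 16) L, blk L φ r Y ≤ W * C₀ := by
  obtain ⟨K, hK, hKb, hKs⟩ := exists_shape_const
  refine ⟨4 * 4161, by norm_num, fun M hM => ?_⟩
  set E := energyC (sizeA K M)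
  have hE : 0 ≤ E := by
    have : 0 ≤ sizeA K M := by unfold sizeA; positivity
    simp only [E, energyC]; positivity
  refine ⟨max 1 (Real.sqrt (4 * 8 * 4161 * E)), by positivity,
    fun R hR L hL φ₀ φ h t₁ ht0 ht1 C₀ hc hinit hent => ?_⟩
  have hR0 : 0 < R := lt_of_lt_of_le one_pos ((le_max_left _ _).trans hR)
  have hRE : 4 * 8 * 4161 * E ≤ R ^ 2 := by
    rw [← Real.sqrt_le_left hR0.le]; exact (le_max_right _ _).trans hR
  have hL0 : 0 < L := by linarith
  set lo : ℝ → ℝ := fun r => R * Real.sqrt (1 - r)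
  have hlo : ∀ r, r ≤ t₁ → 0 < lo r := fun r hr => mul_pos hR0 (Real.sqrt_pos.2 (by linarith))
  have hloR : ∀ r, 0 ≤ r → lo r ≤ R := fun r hr =>
    mul_le_of_le_one_right hR0.le (Real.sqrt_le_one.2 (by linarith))
  have mem : ∀ r ∈ Icc 0 t₁, r ∈ TI := fun r hr => ⟨hr.1, hr.2.trans ht1.le⟩
  -- the set of all block values
  set V : Set ℝ := {v | ∃ r ∈ Icc 0 t₁, ∃ Y ∈ Icc (lo r / 16) L, v = blk L φ r Y} with hV
  have hbdd : BddAbove V := by
    set a₀ := lo t₁ / 16
    have ha₀ : 0 < a₀ := by have := hlo t₁ le_rfl; simp only [a₀]; linarith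
    have hc' : ContinuousOn (fun p : ℝ × ℝ => p.2 ^ 7 * curv L φ p.1 p.2 ^ 2)
        (Icc 0 t₁ ×ˢ Icc a₀ L) :=
      ((continuous_snd.pow 7).continuousOn).mul (((smooth_curv h).continuousOn.mono
        (prod_mono (fun r hr => mem r hr) fun z hz => ⟨ha₀.trans_le hz.1, hz.2⟩)).pow 2)
    obtain ⟨Cm, hCm⟩ := (isCompact_Icc.prod isCompact_Icc).exists_bound_of_continuousOn hc'
    refine ⟨|Cm| * L / a₀ ^ 6, ?_⟩
    rintro v ⟨r, hr, Y, hY, rfl⟩
    have hmono : a₀ ≤ lo r / 16 := by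
      refine div_le_div_of_nonneg_right (mul_le_mul_of_nonneg_left
        (Real.sqrt_le_sqrt (by linarith [hr.2])) hR0.le) (by norm_num)
    have hY0 : 0 < Y := lt_of_lt_of_le ha₀ (hmono.trans hY.1)
    have hm : Y ≤ min (2 * Y) L := le_min (by linarith) hY.2
    rw [blk]
    refine div_le_div₀ (by positivity) ?_ (by positivity)
      (pow_le_pow_left₀ ha₀.le (hmono.trans hY.1) 6)
    have hb := intervalIntegral.norm_integral_le_of_norm_le_const (a := Y) (b := min (2 * Y) L)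
      (f := fun x => x ^ 7 * curv L φ r x ^ 2) (C := |Cm|) fun x hx => by
        rw [uIoc_of_le hm] at hx
        exact (hCm (r, x) ⟨hr, (hmono.trans hY.1).trans hx.1.le,
          hx.2.trans (min_le_right _ _)⟩).trans (le_abs_self _)
    refine (le_abs_self _).trans (hb.trans (mul_le_mul_of_nonneg_left ?_ (abs_nonneg _)))
    rw [abs_of_nonneg (sub_nonneg.2 hm)]
    linarith [min_le_right (2 * Y) L]
  set B := sSup V
  have hleB : ∀ r ∈ Icc 0 t₁, ∀ Y ∈ Icc (lo r / 16) L, blk L φ r Y ≤ B := fun r hr Y hY =>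
    le_csSup hbdd ⟨r, hr, Y, hY, rfl⟩
  have h0mem : (0:ℝ) ∈ Icc (0:ℝ) t₁ := ⟨le_rfl, ht0⟩
  have hLmem : L ∈ Icc (lo 0 / 16) L := ⟨by linarith [hloR 0 le_rfl, hlo 0 ht0], le_rfl⟩
  have hB0 : 0 ≤ B := (blk_nonneg hL0 le_rfl).trans (hleB 0 h0mem L hLmem)
  have hC0 : 0 ≤ C₀ := (blk_nonneg hL0 le_rfl).trans (hinit L ⟨by linarith, le_rfl⟩)
  set Q := 4161 * C₀ + 8 * 4161 * E / R ^ 2 * B with hQ
  have hQ0 : C₀ ≤ Q := by
    have : 0 ≤ 8 * 4161 * E / R ^ 2 * B := by positivity
    linarith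
  -- bumps
  have hbump : ∀ r ∈ Icc 0 t₁, ∀ X, lo r ≤ X → 4 * X ≤ L / 2 →
      energy L (fun x => bump (x / X)) (X / 2) (4 * X) φ r ≤ Q * X ^ 6 := by
    intro r hr X hXlo hX4
    have hX : 0 < X := (hlo r hr.2).trans_le hXlo
    have hθc : Continuous fun x : ℝ => bump (x / X) :=
      smooth_bump.continuous.comp (continuous_id.div_const X)
    -- entry time
    have key : ∀ te, 0 ≤ te → te ≤ r → r - te ≤ 4 * X ^ 2 / R ^ 2 → lo te / 16 ≤ X / 2 →
        (∀ Y ∈ Icc (X / 2) (2 * X), blk L φ te Y ≤ C₀) →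
        energy L (fun x => bump (x / X)) (X / 2) (4 * X) φ r ≤ Q * X ^ 6 := by
      intro te h0 hte hdur hlote hentry
      have hlor : ∀ r' ∈ Icc te r, lo r' / 16 ≤ X / 2 := fun r' hr' =>
        le_trans (div_le_div_of_nonneg_right (mul_le_mul_of_nonneg_left
          (Real.sqrt_le_sqrt (by linarith [hr'.1])) hR0.le) (by norm_num)) hlote
      have hg := energy_growth h hX hX4 hK hM hKb le_rfl (by linarith) (by linarith)
        (by rw [bump, Real.smoothTransition.zero_of_nonpos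
          (show 2 * (X / 2 / X) - 1 ≤ 0 by rw [div_div, mul_comm 2 X, ← div_div, div_self hX.ne']
                                           norm_num), zero_mul])
        (Or.inl (by rw [bump, Real.smoothTransition.zero_of_nonpos
          (show 2 - 4 * X / X / 2 ≤ 0 by rw [mul_div_cancel_right₀ _ hX.ne']; norm_num), mul_zero]))
        h0 hte (by linarith [hr.2]) hdur hR0
        (fun r' hr' x hx => hc r' ⟨h0.trans hr'.1, hr'.2.trans hr.2⟩ x
          ⟨(hlor r' hr').trans hx.1, hx.2.trans (by linarith)⟩) hB0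
        (fun r' hr' => window_bump h (mem r' ⟨h0.trans hr'.1, hr'.2.trans hr.2⟩) hX (by linarith)
          hB0 fun Y hY => hleB r' ⟨h0.trans hr'.1, hr'.2.trans hr.2⟩ Y
            ⟨(hlor r' hr').trans hY.1, hY.2.trans (by linarith)⟩)
      have hte' : te ∈ TI := mem te ⟨h0, hte.trans hr.2⟩
      have hstart := (energy_le_window h hte' hθc (fun x => hKb.mem _) (by linarith)
        (by linarith : X / 2 ≤ 4 * X) (by linarith)).trans
        (window_bump h hte' hX (by linarith) hC0 hentry)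
      rw [hQ, add_mul]
      linarith
    rcases le_or_gt R (2 * X) with hbig | hsmall
    · refine key 0 le_rfl hr.1 ?_ ?_ fun Y hY => hinit Y ⟨by linarith [hY.1], hY.2.trans (by linarith)⟩
      · rw [sub_zero, le_div_iff₀ (by positivity : (0:ℝ) < R ^ 2)]
        calc r * R ^ 2 ≤ 1 * R ^ 2 := by gcongr; linarith [hr.2]
          _ ≤ (2 * X) ^ 2 := by rw [one_mul]; gcongr
          _ = 4 * X ^ 2 := by ring
      · linarith [hloR 0 le_rfl, hlo 0 ht0]
    · set te := 1 - (2 * X / R) ^ 2 with hte_def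
      have hq1 : 2 * X / R < 1 := (div_lt_one hR0).2 hsmall
      have hq0 : 0 < 2 * X / R := by positivity
      have h0 : 0 ≤ te := by
        have := pow_le_one₀ (n := 2) hq0.le hq1.le
        linarith
      have hlote : lo te = 2 * X := by
        simp only [lo, hte_def, sub_sub_cancel]
        rw [Real.sqrt_sq hq0.le, mul_div_cancel₀ _ hR0.ne']
      have hte : te ≤ r := by
        by_contra hlt
        have : lo te ≤ lo r := mul_le_mul_of_nonneg_left
          (Real.sqrt_le_sqrt (by linarith [not_le.1 hlt])) hR0.le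
        linarith
      refine key te h0 hte ?_ (by linarith) fun Y hY =>
        hent te ⟨h0, hte.trans hr.2⟩ Y ⟨?_, ?_⟩
      · have e : 4 * X ^ 2 / R ^ 2 = (2 * X / R) ^ 2 := by ring
        rw [e, hte_def]; linarith [hr.2, ht1]
      · show lo te / 16 ≤ Y
        linarith [hY.1]
      · show Y ≤ lo te
        linarith [hY.2]
  -- the outer end
  have hendb : ∀ r ∈ Icc 0 t₁,
      energy L (fun x => step (x / (L / 8))) (L / 8) L φ r ≤ Q * (L / 8) ^ 6 := by
    intro r hr
    have hθc : Continuous fun x : ℝ => step (x / (L / 8)) :=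
      smooth_step.continuous.comp (continuous_id.div_const _)
    have h8 : (0:ℝ) < L / 8 := by linarith
    have hlor : ∀ r' ∈ Icc 0 r, lo r' / 16 ≤ L / 8 := fun r' hr' => by
      linarith [hloR r' hr'.1, hlo r' (hr'.2.trans hr.2)]
    have hg := energy_growth h h8 (by linarith) hK hM hKs (by linarith) (by linarith) le_rfl
      (by rw [div_self h8.ne', step, sub_self, Real.smoothTransition.zero])
      (Or.inr rfl) le_rfl hr.1 (by linarith [hr.2]) (R := R) (by
        rw [sub_zero, le_div_iff₀ (by positivity : (0:ℝ) < R ^ 2)]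
        calc r * R ^ 2 ≤ 1 * R ^ 2 := by gcongr; linarith [hr.2]
          _ ≤ (2 * (L / 8)) ^ 2 := by rw [one_mul]; gcongr; linarith
          _ = 4 * (L / 8) ^ 2 := by ring) hR0
      (fun r' hr' x hx => hc r' ⟨hr'.1, hr'.2.trans hr.2⟩ x ⟨(hlor r' hr').trans hx.1, hx.2⟩) hB0
      (fun r' hr' => window_end h (mem r' ⟨hr'.1, hr'.2.trans hr.2⟩) hL0 hB0
        fun Y hY => hleB r' ⟨hr'.1, hr'.2.trans hr.2⟩ Y ⟨(hlor r' hr').trans hY.1, hY.2⟩)
    have hstart := (energy_le_window h (mem 0 h0mem) hθc (fun x => hKs.mem _) h8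
      (by linarith : L / 8 ≤ L) le_rfl).trans (window_end h (mem 0 h0mem) hL0 hC0
        fun Y hY => hinit Y ⟨by linarith [hY.1], hY.2⟩)
    rw [hQ, add_mul]
    linarith
  -- every block
  have hall : ∀ r ∈ Icc 0 t₁, ∀ Y ∈ Icc (lo r / 16) L, blk L φ r Y ≤ 2 * Q := by
    intro r hr Y hY
    have hrI := mem r hr
    rcases le_or_gt Y (lo r) with h1 | h1
    · linarith [hent r hr Y ⟨hY.1, h1⟩]
    have hY0 : 0 < Y := (hlo r hr.2).trans h1
    rcases le_or_gt Y (L / 8) with h2 | h2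
    · have := plateau_le_energy h hrI (θ := fun x => bump (x / Y))
        (smooth_bump.continuous.comp (continuous_id.div_const Y)) (a := Y / 2) (b := 4 * Y)
        (c := Y) (d := 2 * Y) (by linarith) (by linarith) (by linarith) (by linarith)
        (by linarith) fun x hx => by
          have u1 : 1 ≤ x / Y := (one_le_div hY0).2 hx.1
          have u2 : x / Y ≤ 2 := (div_le_iff₀ hY0).2 hx.2
          show bump (x / Y) = 1
          rw [bump, Real.smoothTransition.one_of_one_le (by linarith),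
            Real.smoothTransition.one_of_one_le (by linarith), one_mul]
      rw [blk, min_eq_left (by linarith), div_le_iff₀ (by positivity)]
      have := hbump r hr Y h1.le (by linarith)
      linarith [mul_nonneg (hC0.trans hQ0) (pow_nonneg hY0.le 6)]
    · have h8 : (0:ℝ) < L / 8 := by linarith
      have pb := plateau_le_energy h hrI (θ := fun x => bump (x / (L / 8)))
        (smooth_bump.continuous.comp (continuous_id.div_const _)) (a := L / 8 / 2)
        (b := 4 * (L / 8)) (c := L / 8) (d := L / 4) (by linarith) (by linarith) (by linarith)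
        (by linarith) (by linarith) fun x hx => by
          have u1 : 1 ≤ x / (L / 8) := (one_le_div h8).2 hx.1
          have u2 : x / (L / 8) ≤ 2 := (div_le_iff₀ h8).2 (by linarith [hx.2])
          show bump (x / (L / 8)) = 1
          rw [bump, Real.smoothTransition.one_of_one_le (by linarith),
            Real.smoothTransition.one_of_one_le (by linarith), one_mul]
      have ps := plateau_le_energy h hrI (θ := fun x => step (x / (L / 8)))
        (smooth_step.continuous.comp (continuous_id.div_const _)) (a := L / 8) (b := L)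
        (c := L / 4) (d := L) h8 (by linarith) (by linarith) le_rfl le_rfl fun x hx => by
          have u1 : 2 ≤ x / (L / 8) := (le_div_iff₀ h8).2 (by linarith [hx.1])
          show step (x / (L / 8)) = 1
          rw [step, Real.smoothTransition.one_of_one_le (by linarith)]
      have hi := intervalIntegrable_curv h hrI h8 (by linarith : L / 8 ≤ L) le_rfl
      have hsum := intervalIntegral.integral_add_adjacent_intervals
        (intervalIntegrable_curv h hrI h8 (by linarith : L / 8 ≤ L / 4) (by linarith))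
        (intervalIntegrable_curv h hrI (by linarith) (by linarith : L / 4 ≤ L) le_rfl)
      have hsub : ∫ x in Y..min (2 * Y) L, x ^ 7 * curv L φ r x ^ 2
          ≤ ∫ x in L / 8..L, x ^ 7 * curv L φ r x ^ 2 :=
        intervalIntegral.integral_mono_interval h2.le (le_min (by linarith) hY.2) (min_le_right _ _)
          ((ae_restrict_mem measurableSet_Ioc).mono fun x hx =>
            mul_nonneg (pow_nonneg (h8.le.trans hx.1.le) 7) (sq_nonneg _)) hi
      rw [blk, div_le_iff₀ (by positivity)]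
      have e1 := hbump r hr (L / 8) (by linarith [hloR r hr.1, hY.1]) (by linarith)
      have e2 := hendb r hr
      have e3 := mul_le_mul_of_nonneg_left (pow_le_pow_left₀ h8.le h2.le 6)
        (show (0:ℝ) ≤ 2 * Q by linarith)
      linarith
  have hcoef : 2 * (8 * 4161 * E / R ^ 2 * B) ≤ B / 2 := by
    have : 8 * 4161 * E / R ^ 2 ≤ 1 / 4 := by
      rw [div_le_iff₀ (by positivity)]; linarith
    calc 2 * (8 * 4161 * E / R ^ 2 * B) ≤ 2 * (1 / 4 * B) := by gcongr
      _ = B / 2 := by ring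
  have hBQ : B ≤ 2 * Q := csSup_le ⟨_, 0, h0mem, L, hLmem, rfl⟩ (by
    rintro v ⟨r, hr, Y, hY, rfl⟩; exact hall r hr Y hY)
  intro r hr Y hY
  refine (hleB r hr Y hY).trans ?_
  rw [hQ] at hBQ
  linarith

end Vale.Agent.P264.Middle
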